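import Vale.Agent.P340.T.Confl

/-!
# P340, memory translation: head reduction, leftmost normalization, strong normalization
-/

namespace Vale.Agent.P340.Mem

open Tm

universe u

variable {S : Type u}

/-- One step of weak head reduction. -/
inductive HStep : Tm S → Tm S → Prop
  | beta (A M N : Tm S) : HStep (app (lam A M) N) (M.sub (one N))
  | app {f f' : Tm S} (a : Tm S) : HStep f f' → HStep (app f a) (app f' a)

abbrev HRed : Tm S → Tm S → Prop := Relation.ReflTransGen HStep

/-- Terms whose head is a variable, a sort or a product. -/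
inductive Neu : Tm S → Prop
  | var (i : ℕ) : Neu (var i)
  | sort (s : S) : Neu (sort s)
  | pi (A B : Tm S) : Neu (pi A B)
  | app {f : Tm S} (a : Tm S) : Neu f → Neu (app f a)

theorem HStep.not_neu {t t' : Tm S} (h : HStep t t') : ¬ Neu t := by
  induction h with
  | beta A M N => intro hn; cases hn with | app _ h => cases h
  | app a _ ih => intro hn; cases hn with | app _ h => exact ih h

theorem HStep.det {t u v : Tm S} (h : HStep t u) : HStep t v → u = v := by
  induction h generalizing v with
  | beta A M N =>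
    intro h2
    cases h2 with
    | beta _ _ _ => rfl
    | app _ h3 => cases h3
  | app a h1 ih =>
    intro h2
    cases h2 with
    | beta _ _ _ => cases h1
    | app _ h3 => rw [ih h3]

theorem HStep.step {t u : Tm S} (h : HStep t u) : Step t u := by
  induction h with
  | beta A M N => exact beta_sub A M N
  | app a _ ih => exact .appL a ih

theorem HStep.sub {t u : Tm S} (h : HStep t u) (σ : ℕ → Tm S) : HStep (t.sub σ) (u.sub σ) := by
  induction h with
  | beta A M N => rw [sub_one_comp]; exact .beta _ _ _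
  | app a _ ih => exact .app _ ih

theorem HRed.app {f f' : Tm S} (h : HRed f f') (a : Tm S) : HRed (Tm.app f a) (Tm.app f' a) :=
  Relation.ReflTransGen.lift (fun x => Tm.app x a) (fun _ _ h => HStep.app a h) _ _ h

theorem HRed.sub {t u : Tm S} (h : HRed t u) (σ : ℕ → Tm S) : HRed (t.sub σ) (u.sub σ) :=
  Relation.ReflTransGen.lift (Tm.sub σ) (fun _ _ h => HStep.sub h σ) _ _ h

theorem HRed.red {t u : Tm S} (h : HRed t u) : Red t u :=
  Relation.ReflTransGen.mono (fun _ _ h => HStep.step h) _ _ h

/-- Leftmost normalization succeeds with derivation height at most `n`. -/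
inductive Ev : ℕ → Tm S → Prop
  | var (n i : ℕ) : Ev n (var i)
  | sort (n : ℕ) (s : S) : Ev n (sort s)
  | lam {n : ℕ} {A M : Tm S} : Ev n A → Ev n M → Ev (n + 1) (lam A M)
  | pi {n : ℕ} {A M : Tm S} : Ev n A → Ev n M → Ev (n + 1) (pi A M)
  | app {n : ℕ} {f a : Tm S} : Neu f → Ev n f → Ev n a → Ev (n + 1) (app f a)
  | head {n : ℕ} {t t' : Tm S} : HStep t t' → Ev n t' → Ev (n + 1) t

theorem Ev.mono {n : ℕ} {t : Tm S} (h : Ev n t) : ∀ {m : ℕ}, n ≤ m → Ev m t := by
  induction h with
  | var _ i => intro m _; exact .var m i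
  | sort _ s => intro m _; exact .sort m s
  | lam _ _ i1 i2 =>
    intro m hm; obtain ⟨k, rfl⟩ : ∃ k, m = k + 1 := ⟨m - 1, by omega⟩
    exact .lam (i1 (by omega)) (i2 (by omega))
  | pi _ _ i1 i2 =>
    intro m hm; obtain ⟨k, rfl⟩ : ∃ k, m = k + 1 := ⟨m - 1, by omega⟩
    exact .pi (i1 (by omega)) (i2 (by omega))
  | app hn _ _ i1 i2 =>
    intro m hm; obtain ⟨k, rfl⟩ : ∃ k, m = k + 1 := ⟨m - 1, by omega⟩
    exact .app hn (i1 (by omega)) (i2 (by omega))
  | head hs _ ih =>
    intro m hm; obtain ⟨k, rfl⟩ : ∃ k, m = k + 1 := ⟨m - 1, by omega⟩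
    exact .head hs (ih (by omega))

theorem Ev.step_inv {n : ℕ} {t t' : Tm S} (h : Ev n t) (hs : HStep t t') :
    ∃ m < n, Ev m t' := by
  cases h with
  | var _ i => cases hs
  | sort _ s => cases hs
  | lam _ _ => cases hs
  | pi _ _ => cases hs
  | app hn _ _ => exact absurd (Neu.app _ hn) hs.not_neu
  | @head k _ t'' h1 h2 =>
    obtain rfl := hs.det h1
    exact ⟨k, by omega, h2⟩

theorem Ev.red_inv {n : ℕ} {t t' : Tm S} (h : Ev n t) (hs : HRed t t') : Ev n t' := by
  induction hs with
  | refl => exact h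
  | tail _ h1 ih =>
    obtain ⟨m, hm, hm'⟩ := ih.step_inv h1
    exact hm'.mono hm.le

theorem Ev.beta_inv {n : ℕ} {A M N : Tm S} (h : Ev n (Tm.app (Tm.lam A M) N)) :
    ∃ m < n, Ev m (M.sub (one N)) :=
  h.step_inv (.beta A M N)

theorem Ev.app_inv {n : ℕ} {f a : Tm S} (h : Ev n (Tm.app f a)) (hf : Neu f) :
    ∃ m < n, Ev m f ∧ Ev m a := by
  cases h with
  | @app k _ _ _ h1 h2 => exact ⟨k, by omega, h1, h2⟩
  | head hs _ => exact absurd (Neu.app _ hf) hs.not_neu

/-- Standard reductions. -/
inductive Std : Tm S → Tm S → Prop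
  | var {t : Tm S} {i : ℕ} : HRed t (var i) → Std t (var i)
  | sort {t : Tm S} {s : S} : HRed t (sort s) → Std t (sort s)
  | app {t f f' a a' : Tm S} : HRed t (app f a) → Std f f' → Std a a' → Std t (app f' a')
  | lam {t A A' M M' : Tm S} : HRed t (lam A M) → Std A A' → Std M M' → Std t (lam A' M')
  | pi {t A A' M M' : Tm S} : HRed t (pi A M) → Std A A' → Std M M' → Std t (pi A' M')

theorem Std.rfl' : ∀ t : Tm S, Std t t
  | .var _ => .var .refl
  | .sort _ => .sort .refl
  | .app f a => .app .refl (Std.rfl' f) (Std.rfl' a)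
  | .lam A M => .lam .refl (Std.rfl' A) (Std.rfl' M)
  | .pi A M => .pi .refl (Std.rfl' A) (Std.rfl' M)

theorem Std.hred {t u v : Tm S} (h : HRed t u) (h2 : Std u v) : Std t v := by
  cases h2 with
  | var h1 => exact .var (h.trans h1)
  | sort h1 => exact .sort (h.trans h1)
  | app h1 a b => exact .app (h.trans h1) a b
  | lam h1 a b => exact .lam (h.trans h1) a b
  | pi h1 a b => exact .pi (h.trans h1) a b

theorem Std.ren {t u : Tm S} (h : Std t u) : ∀ r : ℕ → ℕ, Std (t.ren r) (u.ren r) := by
  induction h with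
  | var h => intro r; exact .var (by simpa [sub_var_comp, Tm.ren] using h.sub fun n => Tm.var (r n))
  | sort h =>
    intro r; exact .sort (by simpa [sub_var_comp, Tm.ren] using h.sub fun n => Tm.var (r n))
  | app h _ _ i1 i2 =>
    intro r
    exact .app (by simpa [sub_var_comp, Tm.ren] using h.sub fun n => Tm.var (r n)) (i1 r) (i2 r)
  | lam h _ _ i1 i2 =>
    intro r
    exact .lam (by simpa [sub_var_comp, Tm.ren] using h.sub fun n => Tm.var (r n)) (i1 r)
      (i2 (upr r))
  | pi h _ _ i1 i2 =>
    intro r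
    exact .pi (by simpa [sub_var_comp, Tm.ren] using h.sub fun n => Tm.var (r n)) (i1 r)
      (i2 (upr r))

theorem Std.sub {t u : Tm S} (h : Std t u) :
    ∀ {σ τ : ℕ → Tm S}, (∀ n, Std (σ n) (τ n)) → Std (t.sub σ) (u.sub τ) := by
  induction h with
  | var h => intro σ τ hs; exact Std.hred (h.sub σ) (hs _)
  | sort h => intro σ τ _; exact .sort (h.sub σ)
  | app h _ _ i1 i2 => intro σ τ hs; exact .app (h.sub σ) (i1 hs) (i2 hs)
  | lam h _ _ i1 i2 =>
    intro σ τ hs
    exact .lam (h.sub σ) (i1 hs) (i2 fun n => by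
      cases n with
      | zero => exact Std.rfl' _
      | succ n => exact (hs n).ren _)
  | pi h _ _ i1 i2 =>
    intro σ τ hs
    exact .pi (h.sub σ) (i1 hs) (i2 fun n => by
      cases n with
      | zero => exact Std.rfl' _
      | succ n => exact (hs n).ren _)

theorem Std.step {t u v : Tm S} (h : Std t u) (hs : Step u v) : Std t v := by
  induction h generalizing v with
  | var _ => cases hs
  | sort _ => cases hs
  | @app t f f' a a' h hf ha i1 i2 =>
    cases hs with
    | beta A M N =>
      rw [subst_zero]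
      cases hf with
      | @lam _ A0 _ M0 _ h1 _ hM =>
        refine Std.hred (h.trans ((h1.app a).tail (.beta A0 M0 a))) (hM.sub fun n => ?_)
        cases n with
        | zero => exact ha
        | succ n => exact Std.rfl' _
    | appL _ h1 => exact .app h (i1 h1) ha
    | appR _ h1 => exact .app h hf (i2 h1)
  | lam h hA hM i1 i2 =>
    cases hs with
    | lamL _ h1 => exact .lam h (i1 h1) hM
    | lamR _ h1 => exact .lam h hA (i2 h1)
  | pi h hA hM i1 i2 =>
    cases hs with
    | piL _ h1 => exact .pi h (i1 h1) hM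
    | piR _ h1 => exact .pi h hA (i2 h1)

theorem Ev.of_hred {t t' : Tm S} (h : HRed t t') {n : ℕ} (hn : Ev n t') : ∃ m, Ev m t := by
  induction h using Relation.ReflTransGen.head_induction_on with
  | refl => exact ⟨n, hn⟩
  | head h1 _ ih =>
    obtain ⟨m, hm⟩ := ih
    exact ⟨m + 1, .head h1 hm⟩

theorem Std.ev {t u : Tm S} (h : Std t u) (hu : u.Normal) :
    ∃ t0 n, HRed t t0 ∧ Ev n t0 ∧ (Neu u → Neu t0) := by
  induction h with
  | var h => exact ⟨_, 0, h, .var _ _, fun h => h⟩
  | sort h => exact ⟨_, 0, h, .sort _ _, fun h => h⟩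
  | @app t f f' a a' h hf ha i1 i2 =>
    obtain ⟨f0, n, hf0, hn, hneu⟩ := i1 fun N hN => hu _ (.appL _ hN)
    obtain ⟨a0, m, ha0, hm, -⟩ := i2 fun N hN => hu _ (.appR _ hN)
    have hnf : Neu f' := by
      have : ∀ x : Tm S, (∀ N, ¬ Step x N) → (∀ A M, x ≠ Tm.lam A M) → Neu x := by
        intro x
        induction x with
        | var i => exact fun _ _ => .var i
        | sort s => exact fun _ _ => .sort s
        | pi A B _ _ => exact fun _ _ => .pi A B
        | lam A M _ _ => exact fun _ h2 => absurd rfl (h2 A M)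
        | app g b ihg _ =>
          intro h1 _
          refine .app b (ihg (fun N hN => h1 _ (.appL _ hN)) fun A M e => ?_)
          subst e; exact h1 _ (.beta A M b)
      refine this f' (fun N hN => hu _ (.appL _ hN)) fun A M e => ?_
      subst e; exact hu _ (.beta A M a')
    obtain ⟨m', hm'⟩ := Ev.of_hred ha0 hm
    exact ⟨Tm.app f0 a, max n m' + 1, h.trans (hf0.app a),
      .app (hneu hnf) (hn.mono (le_max_left _ _)) (hm'.mono (le_max_right _ _)),
      fun _ => .app _ (hneu hnf)⟩
  | lam h _ _ i1 i2 =>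
    obtain ⟨A0, n, hA0, hn, -⟩ := i1 fun N hN => hu _ (.lamL _ hN)
    obtain ⟨M0, m, hM0, hm, -⟩ := i2 fun N hN => hu _ (.lamR _ hN)
    obtain ⟨n', hn'⟩ := Ev.of_hred hA0 hn
    obtain ⟨m', hm'⟩ := Ev.of_hred hM0 hm
    exact ⟨_, max n' m' + 1, h, .lam (hn'.mono (le_max_left _ _)) (hm'.mono (le_max_right _ _)),
      fun h => by cases h⟩
  | pi h _ _ i1 i2 =>
    obtain ⟨A0, n, hA0, hn, -⟩ := i1 fun N hN => hu _ (.piL _ hN)
    obtain ⟨M0, m, hM0, hm, -⟩ := i2 fun N hN => hu _ (.piR _ hN)
    obtain ⟨n', hn'⟩ := Ev.of_hred hA0 hn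
    obtain ⟨m', hm'⟩ := Ev.of_hred hM0 hm
    exact ⟨_, max n' m' + 1, h, .pi (hn'.mono (le_max_left _ _)) (hm'.mono (le_max_right _ _)),
      fun _ => .pi _ _⟩

/-- Weak normalization implies that leftmost normalization succeeds. -/
theorem ev_of_red_normal {t u : Tm S} (h : Red t u) (hu : u.Normal) : ∃ n, Ev n t := by
  have hs : Std t u := by
    clear hu
    induction h with
    | refl => exact Std.rfl' t
    | tail _ h1 ih => exact ih.step h1
  obtain ⟨t0, n, h0, hn, -⟩ := hs.ev hu
  exact Ev.of_hred h0 hn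

/-- Strong normalization. -/
abbrev Sn (M : Tm S) : Prop := Acc (fun a b => Step b a) M

theorem Sn.red {M N : Tm S} (h : Sn M) (hs : Red M N) : Sn N := by
  induction hs with
  | refl => exact h
  | tail _ h1 ih => exact ih.inv h1

theorem Sn.of_sub {σ : ℕ → Tm S} {M : Tm S} (h : Sn (M.sub σ)) : Sn M := by
  generalize hX : M.sub σ = X at h
  induction h generalizing M with
  | intro X _ ih => subst hX; exact ⟨_, fun N hN => ih _ (hN.sub σ) rfl⟩

theorem Sn.left {f a : Tm S} (h : Sn (Tm.app f a)) : Sn f := by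
  generalize hX : Tm.app f a = X at h
  induction h generalizing f with
  | intro X _ ih => subst hX; exact ⟨_, fun N hN => ih _ (.appL a hN) rfl⟩

theorem sn_pi {A B : Tm S} (hA : Sn A) (hB : Sn B) : Sn (Tm.pi A B) := by
  induction hA generalizing B with
  | intro A hA' ihA =>
    induction hB with
    | intro B hB' ihB =>
      refine ⟨_, fun N hN => ?_⟩
      cases hN with
      | piL _ h => exact ihA _ h ⟨_, hB'⟩
      | piR _ h => exact ihB _ h

theorem sn_lam {A M : Tm S} (hA : Sn A) (hM : Sn M) : Sn (Tm.lam A M) := by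
  induction hA generalizing M with
  | intro A hA' ihA =>
    induction hM with
    | intro B hB' ihB =>
      refine ⟨_, fun N hN => ?_⟩
      cases hN with
      | lamL _ h => exact ihA _ h ⟨_, hB'⟩
      | lamR _ h => exact ihB _ h

theorem sn_sort (s : S) : Sn (Tm.sort s) := ⟨_, fun N hN => by cases hN⟩

theorem sn_var (i : ℕ) : Sn (Tm.var i : Tm S) := ⟨_, fun N hN => by cases hN⟩

theorem Neu.step {f g : Tm S} (h : Neu f) (hs : Step f g) : Neu g := by
  induction h generalizing g with
  | var i => cases hs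
  | sort s => cases hs
  | pi A B => cases hs <;> exact .pi _ _
  | app a hn ih =>
    cases hs with
    | beta _ _ _ => cases hn
    | appL _ h => exact .app _ (ih h)
    | appR _ h => exact .app _ hn

theorem sn_neu_app {f a : Tm S} (hn : Neu f) (hf : Sn f) (ha : Sn a) : Sn (Tm.app f a) := by
  induction hf generalizing a with
  | intro f hf' ihf =>
    induction ha with
    | intro a ha' iha =>
      refine ⟨_, fun N hN => ?_⟩
      cases hN with
      | beta _ _ _ => cases hn
      | appL _ h => exact ihf _ h (hn.step h) ⟨_, ha'⟩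
      | appR _ h => exact iha _ h

/-- Iterated application. -/
def apps : Tm S → List (Tm S) → Tm S
  | f, [] => f
  | f, a :: l => apps (Tm.app f a) l

theorem Sn.apps_left : ∀ {l : List (Tm S)} {f : Tm S}, Sn (apps f l) → Sn f
  | [], _, h => h
  | _ :: l, _, h => (Sn.apps_left (l := l) h).left

theorem sn_neu_apps : ∀ {l : List (Tm S)} {f : Tm S}, Neu f → Sn f → (∀ a ∈ l, Sn a) →
    Sn (apps f l)
  | [], _, _, hf, _ => hf
  | a :: l, _, hn, hf, ha => sn_neu_apps (l := l) (.app a hn)
      (sn_neu_app hn hf (ha a List.mem_cons_self)) fun b hb => ha b (List.mem_cons_of_mem _ hb)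

theorem step_apps_left : ∀ {l : List (Tm S)} {f g : Tm S}, Step f g →
    Step (apps f l) (apps g l)
  | [], _, _, h => h
  | a :: l, _, _, h => step_apps_left (l := l) (.appL a h)

theorem red_apps_left {l : List (Tm S)} {f g : Tm S} (h : Red f g) :
    Red (apps f l) (apps g l) :=
  Relation.ReflTransGen.lift (fun x => apps x l) (fun _ _ h => step_apps_left h) _ _ h

theorem step_apps_inv : ∀ {l : List (Tm S)} {f X : Tm S}, (∀ A M, f ≠ Tm.lam A M) →
    Step (apps f l) X → (∃ g, Step f g ∧ X = apps g l) ∨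
      ∃ l', X = apps f l' ∧ ∀ g, Step (apps g l) (apps g l')
  | [], _, X, _, h => .inl ⟨X, h, rfl⟩
  | a :: l, f, X, hf, h => by
    rcases step_apps_inv (l := l) (f := Tm.app f a) (fun A M e => by cases e) h with
      ⟨g, hg, rfl⟩ | ⟨l', rfl, hl⟩
    · cases hg with
      | beta A M _ => exact absurd rfl (hf A M)
      | appL _ h1 => exact .inl ⟨_, h1, rfl⟩
      | @appR _ _ a' h1 => exact .inr ⟨a' :: l, rfl, fun g => step_apps_left (.appR g h1)⟩
    · exact .inr ⟨a :: l', rfl, fun g => hl (Tm.app g a)⟩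

/-- Head expansion preserves strong normalization. -/
theorem sn_expand {A M N : Tm S} {l : List (Tm S)} (hA : Sn A) (hN : Sn N)
    (hX : Sn (apps (M.sub (one N)) l)) : Sn (apps (Tm.app (Tm.lam A M) N) l) := by
  induction hA generalizing M N l with
  | intro A hA' ihA =>
    induction hN generalizing M l with
    | intro N hN' ihN =>
      generalize hY : apps (M.sub (one N)) l = Y at hX
      induction hX generalizing M l with
      | intro Y hY' ihY =>
        subst hY
        refine ⟨_, fun Z hZ => ?_⟩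
        rcases step_apps_inv (fun _ _ e => by cases e) hZ with ⟨g, hg, rfl⟩ | ⟨l', rfl, hl⟩
        · cases hg with
          | beta _ _ _ => rw [subst_zero]; exact ⟨_, hY'⟩
          | appL _ h1 =>
            cases h1 with
            | lamL _ h2 => exact ihA _ h2 ⟨_, hN'⟩ ⟨_, hY'⟩
            | lamR _ h2 => exact ihY _ (step_apps_left (h2.sub _)) rfl
          | appR _ h1 =>
            exact ihN _ h1 (Sn.red ⟨_, hY'⟩ (red_apps_left
              (red_sub fun n => by cases n <;> [exact .single h1; exact .refl])))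
        · exact ihY _ (hl _) rfl

end Vale.Agent.P340.Mem
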