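import Vale.Agent.P340.T.Judg
import Vale.Agent.P340.M.Lam

/-!
# P340, memory translation: the unpadded copies of a term, which carry all types

Every variable `x : A` becomes two variables `xw xv : W A`. `W` and `V` commute with substitution
and reduction; they differ at products only, where `V` inserts a binder for the memory copy.
-/

namespace Vale.Agent.P340.Mem

open Tm

universe u

variable {S : Type u}

/-- Functional specifications. -/
structure Func (P : Spec S) : Prop where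
  ax : ∀ {s t t' : S}, (s, t) ∈ P.ax → (s, t') ∈ P.ax → t = t'
  rule : ∀ {r s t t' : S}, (r, s, t) ∈ P.rule → (r, s, t') ∈ P.rule → t = t'

variable {P : Spec S}

theorem look_det {Γ : List (Tm S)} {k : ℕ} {A B : Tm S} (h1 : Look noGlobals Γ k A)
    (h2 : Look noGlobals Γ k B) : A = B := by
  induction h1 generalizing B with
  | glob h => exact h.elim
  | here => cases h2; rfl
  | there _ ih => cases h2 with | there h => rw [ih h]

theorem look_lt {Γ : List (Tm S)} {k : ℕ} {A : Tm S} (h : Look noGlobals Γ k A) :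
    k < Γ.length := by
  induction h with
  | glob h => exact h.elim
  | here => simp
  | there _ ih => simp only [List.length_cons]; omega

/-- Uniqueness of types. -/
theorem Func.unique (hf : Func P) : ∀ {M : Tm S} {Γ : List (Tm S)} {A B : Tm S},
    H P noGlobals Γ M A → H P noGlobals Γ M B → Conv A B := by
  intro M
  induction M with
  | var k =>
    intro Γ A B h1 h2
    obtain ⟨X, hX, c1⟩ := h1.gen_var
    obtain ⟨Y, hY, c2⟩ := h2.gen_var
    rw [look_det hX hY] at c1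
    exact c1.trans c2.symm
  | sort s =>
    intro Γ A B h1 h2
    obtain ⟨t, ht, c1⟩ := h1.gen_sort
    obtain ⟨t', ht', c2⟩ := h2.gen_sort
    rw [hf.ax ht ht'] at c1
    exact c1.trans c2.symm
  | app f a ihf _ =>
    intro Γ A B h1 h2
    obtain ⟨X, Y, hf1, -, c1⟩ := h1.gen_app
    obtain ⟨X', Y', hf2, -, c2⟩ := h2.gen_app
    exact c1.trans (((conv_pi (ihf hf1 hf2)).2.sub _).trans c2.symm)
  | lam C M _ ihM =>
    intro Γ A B h1 h2
    obtain ⟨X, r, s, -, hM1, -, c1⟩ := h1.gen_lam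
    obtain ⟨X', r', s', -, hM2, -, c2⟩ := h2.gen_lam
    exact c1.trans ((Conv.pi Conv.rfl' (ihM hM1 hM2)).trans c2.symm)
  | pi C D ihC ihD =>
    intro Γ A B h1 h2
    obtain ⟨r, s, t, hC1, hD1, hr1, c1⟩ := h1.gen_pi
    obtain ⟨r', s', t', hC2, hD2, hr2, c2⟩ := h2.gen_pi
    obtain rfl := conv_sort (ihC hC1 hC2)
    obtain rfl := conv_sort (ihD hD1 hD2)
    rw [hf.rule hr1 hr2] at c1
    exact c1.trans c2.symm

theorem Func.sort_unique (hf : Func P) {Γ : List (Tm S)} {A : Tm S} {s t : S}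
    (h1 : H P noGlobals Γ A (.sort s)) (h2 : H P noGlobals Γ A (.sort t)) : s = t :=
  conv_sort (hf.unique h1 h2)

open Classical in
/-- The sort of a type. -/
noncomputable def srt [Nonempty S] (P : Spec S) (Γ : List (Tm S)) (A : Tm S) : S :=
  Classical.epsilon fun s => H P noGlobals Γ A (.sort s)

theorem srt_eq [Nonempty S] (hf : Func P) {Γ : List (Tm S)} {A : Tm S} {s : S}
    (h : H P noGlobals Γ A (.sort s)) : srt P Γ A = s :=
  hf.sort_unique (Classical.epsilon_spec (p := fun s => H P noGlobals Γ A (.sort s)) ⟨s, h⟩) h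

/-- The type of continuation-passing computations of type `C`, below `D` local variables. -/
def T (O : S → Tm S) (D : ℕ) (s : S) (C : Tm S) : Tm S :=
  .pi (.pi C ((O s).ren (· + (D + 1)))) ((O s).ren (· + (D + 1)))

/-- A closed term moved below `D` variables is unaffected by substitution for these. -/
theorem ren_add_sub (X : Tm S) {D D' : ℕ} {τ : ℕ → Tm S}
    (h : ∀ g, τ (D + g) = .var (D' + g)) : (X.ren (· + D)).sub τ = X.ren (· + D') := by
  rw [sub_ren, ← sub_var_comp]; congr 1; funext g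
  rw [Nat.add_comm g D, h, Nat.add_comm]

theorem up_glob {D D' : ℕ} {τ : ℕ → Tm S} (h : ∀ g, τ (D + g) = .var (D' + g)) (g : ℕ) :
    Tm.up τ (D + 1 + g) = .var (D' + 1 + g) := by
  rw [show D + 1 + g = (D + g) + 1 by omega, Tm.up, cons_succ, h,
    show D' + 1 + g = (D' + g) + 1 by omega]
  rfl

theorem T_sub (O : S → Tm S) {D D' : ℕ} {τ : ℕ → Tm S} (h : ∀ g, τ (D + g) = .var (D' + g))
    (s : S) (C : Tm S) : (T O D s C).sub τ = T O D' s (C.sub τ) := by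
  simp only [T, Tm.sub, ren_add_sub _ (up_glob h)]

theorem T_ren (O : S → Tm S) (D k : ℕ) (s : S) (C : Tm S) :
    (T O D s C).ren (· + k) = T O (D + k) s (C.ren (· + k)) := by
  rw [← sub_var_comp, ← sub_var_comp]
  exact T_sub O (fun g => by rw [show D + g + k = D + k + g by omega]) s C

theorem T_red (O : S → Tm S) (D : ℕ) (s : S) {C C' : Tm S} (h : Red C C') :
    Red (T O D s C) (T O D s C') :=
  Red.pi (Red.pi h .refl) .refl

variable [Nonempty S]

open Classical in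
/-- The sort of a sort. -/
noncomputable def axs (P : Spec S) (s : S) : S := Classical.epsilon fun k => (s, k) ∈ P.ax

theorem axs_eq (hf : Func P) {s k : S} (h : (s, k) ∈ P.ax) : axs P s = k :=
  hf.ax (Classical.epsilon_spec (p := fun k => (s, k) ∈ P.ax) ⟨k, h⟩) h

/-- The two unpadded copies. -/
noncomputable def wv (P : Spec S) (O : S → Tm S) (φ : S → S) : List (Tm S) → Tm S → Tm S × Tm S
  | _, .var i => (.var (2 * i + 1), .var (2 * i))
  | Γ, .sort s => (.sort s, (O (φ (axs P s))).ren (· + 2 * Γ.length))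
  | Γ, .app f a =>
    (.app (.app (wv P O φ Γ f).1 (wv P O φ Γ a).1) (wv P O φ Γ a).2,
     .app (.app (wv P O φ Γ f).2 (wv P O φ Γ a).1) (wv P O φ Γ a).2)
  | Γ, .lam A M =>
    (.lam (wv P O φ Γ A).1 (.lam ((wv P O φ Γ A).1.ren Nat.succ) (wv P O φ (A :: Γ) M).1),
     .lam (wv P O φ Γ A).1 (.lam ((wv P O φ Γ A).1.ren Nat.succ) (wv P O φ (A :: Γ) M).2))
  | Γ, .pi A B =>
    (.pi (wv P O φ Γ A).1 (.pi ((wv P O φ Γ A).1.ren Nat.succ) (wv P O φ (A :: Γ) B).1),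
     .pi (wv P O φ Γ A).1 (.pi ((wv P O φ Γ A).1.ren Nat.succ)
       (.pi (T O (2 * (Γ.length + 1)) (φ (srt P Γ A)) ((wv P O φ Γ A).2.ren (· + 2)))
         ((T O (2 * (Γ.length + 1)) (φ (srt P (A :: Γ) B)) (wv P O φ (A :: Γ) B).2).ren Nat.succ))))

variable {O : S → Tm S} {φ : S → S}

theorem sub_typed : ∀ {Γ : List (Tm S)} {σ : ℕ → Tm S} {Δ : List (Tm S)} {i : ℕ},
    Sub P noGlobals Γ σ Δ → i < Γ.length → ∃ B, H P noGlobals Δ (σ i) B
  | [], _, _, _, _, hi => absurd hi (Nat.not_lt_zero _)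
  | _ :: _, _, _, 0, h, _ => ⟨_, h.2⟩
  | _ :: _, _, _, i + 1, h, hi =>
    sub_typed (i := i) h.1 (Nat.lt_of_succ_lt_succ (by simpa using hi))

theorem up_two_zero (τ : ℕ → Tm S) : Tm.up (Tm.up τ) 0 = .var 0 ∧ Tm.up (Tm.up τ) 1 = .var 1 :=
  ⟨rfl, rfl⟩

theorem up_two_add (τ : ℕ → Tm S) (k : ℕ) :
    Tm.up (Tm.up τ) (k + 2) = (τ k).ren (· + 2) := by
  simp only [Tm.up, cons_succ, ren_ren]

theorem ren_two_sub (X : Tm S) (τ : ℕ → Tm S) :
    (X.ren (· + 2)).sub (Tm.up (Tm.up τ)) = (X.sub τ).ren (· + 2) := by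
  rw [sub_ren, ren_sub]; congr 1; funext k; exact up_two_add τ k

theorem ren_succ_sub (X : Tm S) (τ : ℕ → Tm S) :
    (X.ren Nat.succ).sub (Tm.up τ) = (X.sub τ).ren Nat.succ := by
  rw [sub_ren, ren_sub]; rfl

theorem binderQ (Q : Tm S → Prop) (h0 : Q (.var 0)) (hQ : ∀ N, Q N → Q (N.ren Nat.succ)) {Γ : List (Tm S)} {C : Tm S} {σ : ℕ → Tm S} (hq : ∀ i < Γ.length, Q (σ i)) :
    ∀ i < (C :: Γ).length, Q (Tm.up σ i) := fun i hi => by
  cases i with
  | zero => exact h0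
  | succ i => exact hQ _ (hq i (Nat.lt_of_succ_lt_succ (by simpa using hi)))

theorem binderτ (Q : Tm S → Prop)
    (hwk : ∀ {Δ : List (Tm S)} {N B C : Tm S} {s : S}, Q N → H P noGlobals Δ N B →
      H P noGlobals Δ C (.sort s) → (wv P O φ (C :: Δ) (N.ren Nat.succ)).1 =
        (wv P O φ Δ N).1.ren (· + 2) ∧ (wv P O φ (C :: Δ) (N.ren Nat.succ)).2 =
        (wv P O φ Δ N).2.ren (· + 2)) {Γ : List (Tm S)} {C : Tm S} {r : S} {σ τ : ℕ → Tm S} {Δ : List (Tm S)}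
    (hC : H P noGlobals Γ C (.sort r)) (hs : Sub P noGlobals Γ σ Δ)
    (hq : ∀ i < Γ.length, Q (σ i))
    (hτ : ∀ i < Γ.length, τ (2 * i + 1) = (wv P O φ Δ (σ i)).1 ∧
      τ (2 * i) = (wv P O φ Δ (σ i)).2) :
    ∀ i < (C :: Γ).length,
      Tm.up (Tm.up τ) (2 * i + 1) = (wv P O φ (C.sub σ :: Δ) (Tm.up σ i)).1 ∧
      Tm.up (Tm.up τ) (2 * i) = (wv P O φ (C.sub σ :: Δ) (Tm.up σ i)).2 := fun i hi => by
  cases i with
  | zero => exact ⟨rfl, rfl⟩
  | succ i =>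
    have hi' : i < Γ.length := Nat.lt_of_succ_lt_succ (by simpa using hi)
    obtain ⟨B, hB⟩ := sub_typed hs hi'
    obtain ⟨w1, w2⟩ := hwk (hq i hi') hB (hC.sub hs)
    rw [show 2 * (i + 1) + 1 = (2 * i + 1) + 2 by ring, show 2 * (i + 1) = 2 * i + 2 by ring,
      up_two_add, up_two_add, (hτ i hi').1, (hτ i hi').2]
    exact ⟨w1.symm, w2.symm⟩

theorem binderg {Γ Δ : List (Tm S)} {τ : ℕ → Tm S}
    (hg : ∀ g, τ (2 * Γ.length + g) = .var (2 * Δ.length + g)) :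
    ∀ g, Tm.up (Tm.up τ) (2 * (Γ.length + 1) + g) = .var (2 * (Δ.length + 1) + g) := fun g => by
  rw [show 2 * (Γ.length + 1) + g = (2 * Γ.length + g) + 2 by ring, up_two_add, hg]
  simp [Tm.ren]; ring

/-- The copies of a substituted term, given those of the substituted parts. -/
theorem wv_sub_of (hf : Func P) (Q : Tm S → Prop) (h0 : Q (.var 0))
    (hQ : ∀ N, Q N → Q (N.ren Nat.succ))
    (hwk : ∀ {Δ : List (Tm S)} {N B C : Tm S} {s : S}, Q N → H P noGlobals Δ N B →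
      H P noGlobals Δ C (.sort s) → (wv P O φ (C :: Δ) (N.ren Nat.succ)).1 =
        (wv P O φ Δ N).1.ren (· + 2) ∧ (wv P O φ (C :: Δ) (N.ren Nat.succ)).2 =
        (wv P O φ Δ N).2.ren (· + 2)) :
    ∀ {M : Tm S} {Γ : List (Tm S)} {A : Tm S} {σ : ℕ → Tm S} {Δ : List (Tm S)} {τ : ℕ → Tm S},
      H P noGlobals Γ M A → Sub P noGlobals Γ σ Δ → (∀ i < Γ.length, Q (σ i)) →
      (∀ i < Γ.length, τ (2 * i + 1) = (wv P O φ Δ (σ i)).1 ∧ τ (2 * i) = (wv P O φ Δ (σ i)).2) →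
      (∀ g, τ (2 * Γ.length + g) = .var (2 * Δ.length + g)) →
      (wv P O φ Δ (M.sub σ)).1 = (wv P O φ Γ M).1.sub τ ∧
        (wv P O φ Δ (M.sub σ)).2 = (wv P O φ Γ M).2.sub τ := by
  intro M
  induction M with
  | var k =>
    intro Γ A σ Δ τ h _ _ hτ _
    obtain ⟨X, hX, -⟩ := h.gen_var
    exact ⟨((hτ k (look_lt hX)).1).symm, ((hτ k (look_lt hX)).2).symm⟩
  | sort s =>
    intro Γ A σ Δ τ _ _ _ _ hg
    exact ⟨rfl, (ren_add_sub _ hg).symm⟩
  | app f a ihf iha =>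
    intro Γ A σ Δ τ h hs hq hτ hg
    obtain ⟨X, Y, hf', ha', -⟩ := h.gen_app
    obtain ⟨f1, f2⟩ := ihf hf' hs hq hτ hg
    obtain ⟨a1, a2⟩ := iha ha' hs hq hτ hg
    simp only [wv, Tm.sub, f1, f2, a1, a2, and_self]
  | lam C M ihC ihM =>
    intro Γ A σ Δ τ h hs hq hτ hg
    obtain ⟨B, r, s, hC, hM, -, -⟩ := h.gen_lam
    obtain ⟨c1, -⟩ := ihC hC hs hq hτ hg
    obtain ⟨m1, m2⟩ := ihM (τ := Tm.up (Tm.up τ)) hM (hs.up (hC.sub hs))
      (binderQ Q h0 hQ hq) (binderτ Q @hwk hC hs hq hτ) (binderg hg)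
    simp only [wv, Tm.sub, c1, m1, m2, ren_succ_sub, and_self]
  | pi C D ihC ihD =>
    intro Γ A σ Δ τ h hs hq hτ hg
    obtain ⟨r, s, t, hC, hD, -, -⟩ := h.gen_pi
    obtain ⟨c1, c2⟩ := ihC hC hs hq hτ hg
    obtain ⟨d1, d2⟩ := ihD (τ := Tm.up (Tm.up τ)) hD (hs.up (hC.sub hs))
      (binderQ Q h0 hQ hq) (binderτ Q @hwk hC hs hq hτ) (binderg hg)
    simp only [wv, Tm.sub, c1, c2, d1, d2, ren_succ_sub, srt_eq hf hC, srt_eq hf hD,
      srt_eq hf (hC.sub hs), srt_eq hf (hD.sub (hs.up (hC.sub hs))),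
      T_sub O (binderg hg), ren_two_sub, and_self]
theorem sub_succ {Γ : List (Tm S)} {A : Tm S} {s : S} (hA : H P noGlobals Γ A (.sort s)) :
    Sub P noGlobals Γ (fun n => Tm.var (Nat.succ n)) (A :: Γ) := by
  simpa [Tm.ren] using (Sub.var hA.wf).weak hA

theorem wv_wk (hf : Func P) {Δ : List (Tm S)} {N B C : Tm S} {s : S}
    (hN : H P noGlobals Δ N B) (hC : H P noGlobals Δ C (.sort s)) :
    (wv P O φ (C :: Δ) (N.ren Nat.succ)).1 = (wv P O φ Δ N).1.ren (· + 2) ∧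
      (wv P O φ (C :: Δ) (N.ren Nat.succ)).2 = (wv P O φ Δ N).2.ren (· + 2) := by
  have h := wv_sub_of (O := O) (φ := φ) hf (fun N => ∃ k, N = Tm.var k) ⟨0, rfl⟩
    (fun N ⟨k, hk⟩ => ⟨k + 1, by rw [hk]; rfl⟩)
    (by
      rintro Δ' N' B' C' s' ⟨k, rfl⟩ - -
      simp [wv, Tm.ren]; omega)
    (τ := fun n => Tm.var (n + 2)) hN (sub_succ hC) (fun i _ => ⟨i + 1, rfl⟩)
    (fun i _ => by simp [wv]; omega) (fun g => by simp; omega)
  simpa only [sub_var_comp] using h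

theorem wv_sub (hf : Func P) {M : Tm S} {Γ : List (Tm S)} {A : Tm S} {σ : ℕ → Tm S}
    {Δ : List (Tm S)} {τ : ℕ → Tm S} (h : H P noGlobals Γ M A) (hs : Sub P noGlobals Γ σ Δ)
    (hτ : ∀ i < Γ.length, τ (2 * i + 1) = (wv P O φ Δ (σ i)).1 ∧ τ (2 * i) = (wv P O φ Δ (σ i)).2)
    (hg : ∀ g, τ (2 * Γ.length + g) = .var (2 * Δ.length + g)) :
    (wv P O φ Δ (M.sub σ)).1 = (wv P O φ Γ M).1.sub τ ∧
      (wv P O φ Δ (M.sub σ)).2 = (wv P O φ Γ M).2.sub τ :=
  wv_sub_of hf (fun _ => True) trivial (fun _ _ => trivial)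
    (fun _ hN hC => wv_wk hf hN hC) h hs (fun _ _ => trivial) hτ hg

theorem wv_one (hf : Func P) {M : Tm S} {Γ : List (Tm S)} {A B N : Tm S}
    (h : H P noGlobals (A :: Γ) M B) (hN : H P noGlobals Γ N A) :
    (wv P O φ Γ (M.sub (one N))).1 =
        (wv P O φ (A :: Γ) M).1.sub (cons (wv P O φ Γ N).2 (cons (wv P O φ Γ N).1 Tm.var)) ∧
      (wv P O φ Γ (M.sub (one N))).2 =
        (wv P O φ (A :: Γ) M).2.sub (cons (wv P O φ Γ N).2 (cons (wv P O φ Γ N).1 Tm.var)) := by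
  refine wv_sub hf h (Sub.one hN) (fun i hi => ?_) fun g => ?_
  · cases i with
    | zero => exact ⟨rfl, rfl⟩
    | succ i =>
      rw [show 2 * (i + 1) + 1 = (2 * i + 1) + 1 + 1 by ring,
        show 2 * (i + 1) = 2 * i + 1 + 1 by ring]
      exact ⟨rfl, rfl⟩
  · simp only [List.length_cons]
    rw [show 2 * (Γ.length + 1) + g = (2 * Γ.length + g) + 1 + 1 by ring]
    rfl

theorem wv_head (hf : Func P) {Γ : List (Tm S)} {A A' M B : Tm S} {r r' : S}
    (hM : H P noGlobals (A :: Γ) M B) (hA : H P noGlobals Γ A (.sort r))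
    (hA' : H P noGlobals Γ A' (.sort r')) (hc : Conv A A') :
    wv P O φ (A' :: Γ) M = wv P O φ (A :: Γ) M := by
  have hs : Sub P noGlobals (A :: Γ) Tm.var (A' :: Γ) := by
    refine ⟨?_, ?_⟩
    · simpa [Tm.ren] using (Sub.var hA.wf).weak hA'
    · simp only [show (fun n => (Tm.var (n + 1) : Tm S)) = fun n => Tm.var (Nat.succ n) from rfl,
        sub_var_comp]
      exact .conv (.var hA') (.weak hA hA') (hc.symm.ren _)
  obtain ⟨h1, h2⟩ := wv_sub (O := O) (φ := φ) hf (τ := Tm.var) hM hs (fun i _ => ⟨rfl, rfl⟩)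
    (fun g => rfl)
  rw [sub_var, sub_var] at h1 h2
  exact Prod.ext h1 h2

theorem red_ren {M N : Tm S} (h : Red M N) (r : ℕ → ℕ) : Red (M.ren r) (N.ren r) :=
  Relation.ReflTransGen.lift (Tm.ren r) (fun _ _ h => h.ren r) _ _ h

/-- The copies preserve reduction. -/
theorem wv_step (hf : Func P) {M M' : Tm S} (hs : Step M M') : ∀ {Γ : List (Tm S)} {A : Tm S},
    H P noGlobals Γ M A → Red (wv P O φ Γ M).1 (wv P O φ Γ M').1 ∧
      Red (wv P O φ Γ M).2 (wv P O φ Γ M').2 := by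
  induction hs with
  | beta C M N =>
    intro Γ A h
    obtain ⟨X, Y, hf', ha, -⟩ := h.gen_app
    obtain ⟨B, r, s, hC, hM, -, hc⟩ := hf'.gen_lam
    obtain ⟨e1, e2⟩ := wv_one (O := O) (φ := φ) hf hM (H.conv ha hC (conv_pi hc).1)
    rw [subst_zero, e1, e2]
    constructor <;>
    · refine .head (.appL _ (beta_sub _ _ _)) ?_
      simp only [Tm.sub]
      refine .head (beta_sub _ _ _) ?_
      rw [sub_up_one]
      exact .refl
  | appL a _ ih =>
    intro Γ A h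
    obtain ⟨X, Y, hf', -, -⟩ := h.gen_app
    exact ⟨Red.app (Red.app (ih hf').1 .refl) .refl, Red.app (Red.app (ih hf').2 .refl) .refl⟩
  | appR f _ ih =>
    intro Γ A h
    obtain ⟨X, Y, -, ha, -⟩ := h.gen_app
    exact ⟨Red.app (Red.app .refl (ih ha).1) (ih ha).2, Red.app (Red.app .refl (ih ha).1) (ih ha).2⟩
  | @lamL C C' M hst ih =>
    intro Γ A h
    obtain ⟨B, r, s, hC, hM, -, -⟩ := h.gen_lam
    simp only [wv, wv_head hf hM hC (hC.step hst) (.of_red (.single hst))]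
    exact ⟨Red.lam (ih hC).1 (Red.lam (red_ren (ih hC).1 _) .refl),
      Red.lam (ih hC).1 (Red.lam (red_ren (ih hC).1 _) .refl)⟩
  | @lamR C M M' _ ih =>
    intro Γ A h
    obtain ⟨B, r, s, -, hM, -, -⟩ := h.gen_lam
    exact ⟨Red.lam .refl (Red.lam .refl (ih hM).1), Red.lam .refl (Red.lam .refl (ih hM).2)⟩
  | @piL C C' D hst ih =>
    intro Γ A h
    obtain ⟨r, s, t, hC, hD, -, -⟩ := h.gen_pi
    have hcv : Conv C C' := .of_red (.single hst)
    simp only [wv, wv_head hf hD hC (hC.step hst) hcv, srt_eq hf hC, srt_eq hf (hC.step hst),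
      srt_eq hf hD, srt_eq hf (hD.head_conv hC (hC.step hst) hcv)]
    exact ⟨Red.pi (ih hC).1 (Red.pi (red_ren (ih hC).1 _) .refl),
      Red.pi (ih hC).1 (Red.pi (red_ren (ih hC).1 _)
        (Red.pi (T_red O _ _ (red_ren (ih hC).2 _)) .refl))⟩
  | @piR C D D' hst ih =>
    intro Γ A h
    obtain ⟨r, s, t, hC, hD, -, -⟩ := h.gen_pi
    simp only [wv, srt_eq hf hD, srt_eq hf (hD.step hst)]
    exact ⟨Red.pi .refl (Red.pi .refl (ih hD).1),
      Red.pi .refl (Red.pi .refl (Red.pi .refl (red_ren (T_red O _ _ (ih hD).2) _)))⟩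

/-- A term that is typed or is a sort. -/
def Typ (P : Spec S) (Γ : List (Tm S)) (A : Tm S) : Prop :=
  (∃ s, A = .sort s) ∨ ∃ X, H P noGlobals Γ A X

theorem H.typ {Γ : List (Tm S)} {M A : Tm S} (h : H P noGlobals Γ M A) : Typ P Γ A := by
  rcases h.correct with hs | ⟨s, hs⟩
  · exact .inl hs
  · exact .inr ⟨_, hs⟩

theorem wv_red (hf : Func P) {Γ : List (Tm S)} {M M' : Tm S} (h : Typ P Γ M) (hr : Red M M') :
    Red (wv P O φ Γ M).1 (wv P O φ Γ M').1 ∧ Red (wv P O φ Γ M).2 (wv P O φ Γ M').2 := by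
  induction hr with
  | refl => exact ⟨.refl, .refl⟩
  | @tail b c hb h1 ih =>
    have hb' : ∃ X, H P noGlobals Γ b X := by
      rcases h with ⟨s, rfl⟩ | ⟨X, hX⟩
      · rw [red_sort hb] at h1; cases h1
      · exact ⟨X, hX.red hb⟩
    obtain ⟨X, hX⟩ := hb'
    exact ⟨ih.1.trans (wv_step hf h1 hX).1, ih.2.trans (wv_step hf h1 hX).2⟩

theorem wv_conv (hf : Func P) {Γ : List (Tm S)} {A B : Tm S} (hA : Typ P Γ A) (hB : Typ P Γ B)
    (hc : Conv A B) : Conv (wv P O φ Γ A).1 (wv P O φ Γ B).1 ∧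
      Conv (wv P O φ Γ A).2 (wv P O φ Γ B).2 := by
  obtain ⟨C, h1, h2⟩ := hc
  obtain ⟨a1, a2⟩ := wv_red (O := O) (φ := φ) hf hA h1
  obtain ⟨b1, b2⟩ := wv_red (O := O) (φ := φ) hf hB h2
  exact ⟨⟨_, a1, b1⟩, ⟨_, a2, b2⟩⟩

end Vale.Agent.P340.Mem
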