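import Vale.Agent.P340.M.Spec

/-!
# P340, memory translation: countably many sorts suffice
-/

namespace Vale.Agent.P340.Mem

open Tm

universe u

variable {S : Type u} (P : Spec S)

/-- One round of closing a set of sorts under axioms, rule outputs and a chosen partner. -/
def grow (g : Fin 3 → S → S) (C : Set S) : Set S :=
  C ∪ (⋃ s ∈ C, {t | (s, t) ∈ P.ax}) ∪ (⋃ i, g i '' C) ∪
    (⋃ r ∈ C, ⋃ s ∈ C, {t | (r, s, t) ∈ P.rule})

/-- The stages of the closure. -/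
def stage (g : Fin 3 → S → S) (C₀ : Set S) : ℕ → Set S
  | 0 => C₀
  | n + 1 => grow P g (stage g C₀ n)

theorem stage_countable {φ e : S → S} (hc : Closed P φ e) (g : Fin 3 → S → S) {C₀ : Set S} (h₀ : C₀.Countable) :
    ∀ n, (stage P g C₀ n).Countable
  | 0 => h₀
  | n + 1 => by
    have h := stage_countable hc g h₀ n
    have ha : ∀ s : S, {t | (s, t) ∈ P.ax}.Subsingleton := fun s t ht t' ht' => hc.ax_func ht ht'
    have hr : ∀ r s : S, {t | (r, s, t) ∈ P.rule}.Subsingleton :=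
      fun r s t ht t' ht' => hc.rule_func ht ht'
    exact ((h.union (h.biUnion fun s _ => (ha s).finite.countable)).union (Set.countable_iUnion fun i => h.image (g i))).union
      (h.biUnion fun r _ => h.biUnion fun s _ => (hr r s).finite.countable)

theorem stage_mono (g : Fin 3 → S → S) (C₀ : Set S) {m n : ℕ} (h : m ≤ n) :
    stage P g C₀ m ⊆ stage P g C₀ n := by
  induction h with
  | refl => exact subset_rfl
  | step _ ih => exact fun x hx => Or.inl (Or.inl (Or.inl (ih hx)))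

variable {P}

/-- Strong normalization only needs to be proved for countably many sorts. -/
theorem reduce_countable
    (H : ∀ (S' : Type u) (P' : Spec S') (φ' e' : S' → S'), Countable S' → Closed P' φ' e' →
      P'.WeaklyNormalizing → P'.StronglyNormalizing)
    {φ e : S → S} (hc : Closed P φ e) (hw : P.WeaklyNormalizing) : P.StronglyNormalizing := by
  classical
  rintro M ⟨Γ, N, hMN⟩ ⟨f, hf0, hf⟩
  obtain ⟨a, r, ha, hr, sa, sr, hd, p₀, hp₀⟩ : ∃ (a : Set (S × S)) (r : Set (S × S × S)),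
      a.Finite ∧ r.Finite ∧ a ⊆ P.ax ∧ r ⊆ P.rule ∧
        (Derives ⟨a, r⟩ Γ M N ∨ Derives ⟨a, r⟩ Γ N M) ∧ a.Nonempty := by
    rcases hMN with h | h
    · obtain ⟨a, r, ha, hr, sa, sr, d⟩ := h.exists_finite
      exact ⟨a, r, ha, hr, sa, sr, Or.inl d, d.exists_ax⟩
    · obtain ⟨a, r, ha, hr, sa, sr, d⟩ := h.exists_finite
      exact ⟨a, r, ha, hr, sa, sr, Or.inr d, d.exists_ax⟩
  let C₀ : Set S := Prod.fst '' a ∪ Prod.snd '' a ∪ (fun p => p.1) '' r ∪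
    (fun p => p.2.1) '' r ∪ (fun p => p.2.2) '' r
  have h₀ : C₀.Countable := (((((ha.image _).union (ha.image _)).union (hr.image _)).union
    (hr.image _)).union (hr.image _)).countable
  let g₀ : S → S := fun s => (hc.occurs s).choose
  let g : Fin 3 → S → S := fun | 0 => g₀ | 1 => φ | 2 => e
  let C : Set S := ⋃ n, stage P g C₀ n
  have hC : C.Countable := Set.countable_iUnion (stage_countable P hc g h₀)
  have mem0 : ∀ {x}, x ∈ C₀ → x ∈ C := fun h => Set.mem_iUnion.2 ⟨0, h⟩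
  have hA : ∀ {s t}, s ∈ C → (s, t) ∈ P.ax → t ∈ C := fun {s t} hs ht => by
    obtain ⟨n, hn⟩ := Set.mem_iUnion.1 hs
    exact Set.mem_iUnion.2 ⟨n + 1, Or.inl (Or.inl (Or.inr (Set.mem_biUnion hn ht)))⟩
  have hG : ∀ (i : Fin 3) {s}, s ∈ C → g i s ∈ C := fun i {s} hs => by
    obtain ⟨n, hn⟩ := Set.mem_iUnion.1 hs
    exact Set.mem_iUnion.2 ⟨n + 1, Or.inl (Or.inr (Set.mem_iUnion.2 ⟨i, s, hn, rfl⟩))⟩
  have hR : ∀ {x y t}, x ∈ C → y ∈ C → (x, y, t) ∈ P.rule → t ∈ C :=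
    fun {x y t} hx hy ht => by
      obtain ⟨m, hm⟩ := Set.mem_iUnion.1 hx
      obtain ⟨n, hn⟩ := Set.mem_iUnion.1 hy
      exact Set.mem_iUnion.2 ⟨max m n + 1, Or.inr (Set.mem_biUnion
        (stage_mono P g C₀ (le_max_left m n) hm)
        (Set.mem_biUnion (stage_mono P g C₀ (le_max_right m n) hn) ht))⟩
  let P' : Spec C :=
    ⟨{p | (p.1.1, p.2.1) ∈ P.ax}, {p | (p.1.1, p.2.1.1, p.2.2.1) ∈ P.rule}⟩
  let φ' : C → C := fun s => ⟨φ s.1, hG 1 s.2⟩
  let e' : C → C := fun s => ⟨e s.1, hG 2 s.2⟩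
  have rl : ∀ {x y : S}, x ∈ C → y ∈ C → (∃ u, (x, y, u) ∈ P.rule) →
      ∃ u : C, (x, y, u.1) ∈ P.rule :=
    fun {x y} hx hy ⟨u, hu⟩ => ⟨⟨u, hR hx hy hu⟩, hu⟩
  have hc' : Closed P' φ' e' := by
    refine ⟨fun h h' => Subtype.ext (hc.ax_func h h'),
      fun h h' => Subtype.ext (hc.rule_func h h'), fun s => ?_,
      fun h => Subtype.ext (hc.fixed h), fun s => ?_, fun s => ?_,
      fun {x y t} h => hc.idem h, fun {x y t} h => hc.value h, fun {x y t} h => ⟨?_, ?_⟩,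
      fun {x y t} h => ⟨?_, ?_, ?_⟩, fun {s k} h => ⟨?_, ?_, ?_⟩⟩
    · exact ⟨⟨g₀ s, hG 0 s.2⟩, (hc.occurs s.1).choose_spec⟩
    · obtain ⟨t, h1, h2⟩ := hc.neg s.1
      exact ⟨⟨t, hR (hG 1 s.2) (hG 1 s.2) h1⟩, h1, h2⟩
    · exact rl (hG 2 s.2) (hG 2 s.2) (hc.collect s.1)
    · exact rl (hG 1 y.2) (hG 1 t.2) (hc.link h).1
    · exact rl (hG 1 t.2) (hG 1 y.2) (hc.link h).2
    · exact rl (hG 2 x.2) (hG 1 t.2) (hc.emit h).1
    · exact rl (hG 2 x.2) (hG 2 t.2) (hc.emit h).2.1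
    · exact rl (hG 2 y.2) (hG 2 t.2) (hc.emit h).2.2
    · exact rl k.2 s.2 (hc.poly h).1
    · exact rl (hG 1 k.2) (hG 2 s.2) (hc.poly h).2.1
    · exact rl (hG 2 s.2) (hG 1 k.2) (hc.poly h).2.2
  let c₀ : C := ⟨p₀.1, mem0 (Or.inl (Or.inl (Or.inl (Or.inl ⟨p₀, hp₀, rfl⟩))))⟩
  let q : S → C := fun s => if h : s ∈ C then ⟨s, h⟩ else c₀
  have hq : q ∘ Subtype.val = id := funext fun x => by simp [q]
  have hqv : ∀ {s}, s ∈ C → (q s).1 = s := fun h => by simp [q, h]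
  have hA' : (P'.map Subtype.val).ax ⊆ P.ax := by
    rintro _ ⟨p, hp, rfl⟩; exact hp
  have hR' : (P'.map Subtype.val).rule ⊆ P.rule := by
    rintro _ ⟨p, hp, rfl⟩; exact hp
  have hw' : P'.WeaklyNormalizing := by
    rintro K ⟨Δ, L, hKL⟩
    obtain ⟨R, hred, hnf⟩ := hw (K.map Subtype.val) ⟨Δ.map (Tm.map Subtype.val),
      L.map Subtype.val, hKL.imp (fun d => (d.map _).mono hA' hR')
        fun d => (d.map _).mono hA' hR'⟩
    refine ⟨R.map q, ?_, hnf.map q⟩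
    have e1 : (K.map Subtype.val).map q = K := by rw [Tm.map_map, hq, Tm.map_id]
    have := Relation.ReflTransGen.lift (Tm.map q) (fun _ _ hst => Tm.Step.map q hst) _ _ hred
    simp only [Function.onFun, e1] at this
    exact this
  have hqa : ((⟨a, r⟩ : Spec S).map q).ax ⊆ P'.ax := by
    rintro _ ⟨p, hp, rfl⟩
    show ((q p.1).1, (q p.2).1) ∈ P.ax
    rw [hqv (mem0 (Or.inl (Or.inl (Or.inl (Or.inl ⟨p, hp, rfl⟩))))),
      hqv (mem0 (Or.inl (Or.inl (Or.inl (Or.inr ⟨p, hp, rfl⟩)))))]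
    exact sa hp
  have hqr : ((⟨a, r⟩ : Spec S).map q).rule ⊆ P'.rule := by
    rintro _ ⟨p, hp, rfl⟩
    show ((q p.1).1, (q p.2.1).1, (q p.2.2).1) ∈ P.rule
    rw [hqv (mem0 (Or.inl (Or.inl (Or.inr ⟨p, hp, rfl⟩)))),
      hqv (mem0 (Or.inl (Or.inr ⟨p, hp, rfl⟩))), hqv (mem0 (Or.inr ⟨p, hp, rfl⟩))]
    exact sr hp
  exact H C P' φ' e' hC.to_subtype hc' hw' (M.map q)
    ⟨Γ.map (Tm.map q), N.map q,
      hd.imp (fun d => (d.map q).mono hqa hqr) fun d => (d.map q).mono hqa hqr⟩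
    ⟨fun n => (f n).map q, congrArg (Tm.map q) hf0, fun n => (hf n).map q⟩

end Vale.Agent.P340.Mem
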