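import Vale.Agent.P340.M.Lam

/-!
# P340, memory translation: the shape of translated terms, and what their normalization gives

`St d M t`: `t` has the shape of the memory (continuation passing) translation of `M`, where `M`
has `d` variables, the variable `i` of `M` has the memory copy `3 * i`, and all variables of `t`
from `3 * d` on are global constants. Erasable parts of `t` are arbitrary.
-/

namespace Vale.Agent.P340.Mem

open Tm

universe u

variable {S : Type u}

mutual
/-- `t` is shaped as the memory translation of `M`. -/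
inductive St : ℕ → Tm S → Tm S → Prop
  | var {d i : ℕ} : i < d → St d (var i) (var (3 * i))
  | sort {d : ℕ} (s : S) (t : Tm S) : St d (sort s) t
  | pi {d h : ℕ} {A B T e x : Tm S} : 3 * d ≤ h → Em d (pi A B) e →
      St d (pi A B) (lam T (app (app (var (h + 1)) (e.ren Nat.succ)) x))
  | app {d h1 h2 h3 : ℕ} {M N tM tN eN T F u1 u2 : Tm S} : 3 * d ≤ h1 → 3 * d ≤ h2 →
      3 * d ≤ h3 → St d M tM → St d N tN → Em d N eN →
      St d (app M N) (lam T (app (app (var (h1 + 1)) (eN.ren Nat.succ))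
        (app (var (h2 + 1)) (app (tM.ren Nat.succ) (lam F (app (var (h3 + 2))
          (app (app (app (app (var 0) u1) u2) ((tN.ren Nat.succ).ren Nat.succ)) (var 1))))))))
  | lam {d h1 h2 : ℕ} {A M eA eM tM T W1 W2 W3 g1 g2 g3 : Tm S} : 3 * d ≤ h1 → 3 * d ≤ h2 →
      Em d A eA → Em (d + 1) M eM → St (d + 1) M tM →
      St d (lam A M) (lam T (app (app (var (h1 + 1)) (eA.ren Nat.succ))
        (app (app (var (h2 + 1)) ((eM.sub (cons g1 (cons g2 (cons g3 Tm.var)))).ren Nat.succ))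
          (app (var 0) ((lam W1 (lam W2 (lam W3 tM))).ren Nat.succ)))))

/-- `e` is shaped as an emission of `M`. -/
inductive Em : ℕ → Tm S → Tm S → Prop
  | star {d : ℕ} {M t K : Tm S} : St d M t → Em d M (app t K)
  | wrap {d h : ℕ} {M e : Tm S} : 3 * d ≤ h → Em d M e → Em d M (app (var h) e)
  | sort {d : ℕ} (s : S) (e : Tm S) : Em d (sort s) e
  | pi {d h : ℕ} {A B eA eB g1 g2 g3 : Tm S} : 3 * d ≤ h → Em d A eA → Em (d + 1) B eB →
      Em d (pi A B) (app (app (var h) eA) (eB.sub (cons g1 (cons g2 (cons g3 Tm.var)))))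
end

/-- `k` is a continuation that supplies the arguments `l`. -/
def Cont (G : Tm S → Tm S → Prop) : List (Tm S) → Tm S → Prop
  | [], _ => True
  | P :: l, k => ∃ (F : Tm S) (h : ℕ) (u1 u2 p k' : Tm S),
      k = lam F (app (var (h + 1))
        (app (app (app (app (var 0) u1) u2) (p.ren Nat.succ)) (k'.ren Nat.succ))) ∧
      Sn P ∧ G P p ∧ Cont G l k'

theorem Cont.mono {G G' : Tm S → Tm S → Prop} (hG : ∀ P p, G P p → G' P p) :
    ∀ {l : List (Tm S)} {k : Tm S}, Cont G l k → Cont G' l k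
  | [], _, _ => trivial
  | _ :: l, _, ⟨F, h, u1, u2, p, k', e, hs, hg, hc⟩ =>
    ⟨F, h, u1, u2, p, k', e, hs, hG _ _ hg, Cont.mono hG (l := l) hc⟩

theorem Cont.sn {G : Tm S → Tm S → Prop} :
    ∀ {l : List (Tm S)} {k : Tm S}, Cont G l k → ∀ a ∈ l, Sn a
  | [], _, _ => by simp
  | _ :: l, _, ⟨_, _, _, _, _, _, _, hs, _, hc⟩ => fun a ha => by
    rcases List.mem_cons.mp ha with rfl | h
    · exact hs
    · exact Cont.sn (l := l) hc a h

/-- If `t` normalizes within `n` against any continuation, then so does `X` on the arguments. -/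
def Ok : ℕ → Tm S → Tm S → Prop := fun n X t =>
  ∀ l k, Cont (fun P p => ∀ j, j < n → Ok j P p) l k → Ev n (Tm.app t k) → Sn (apps X l)
termination_by n => n

theorem ok_iff (n : ℕ) (X t : Tm S) : Ok n X t ↔
    ∀ l k, Cont (fun P p => ∀ j, j < n → Ok j P p) l k → Ev n (Tm.app t k) → Sn (apps X l) := by
  rw [Ok]

theorem ok_var (n i : ℕ) (t : Tm S) : Ok n (Tm.var i) t :=
  (ok_iff _ _ _).2 fun _ _ hc _ => sn_neu_apps (.var i) (sn_var i) hc.sn

/-- The environment `ρ` of `d` variables is tracked by `σ` up to height `n`. -/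
def Env (n d : ℕ) (ρ σ : ℕ → Tm S) : Prop :=
  (∀ i, i < d → ∀ j, j ≤ n → Ok j (ρ i) (σ (3 * i))) ∧ ∀ h, 3 * d ≤ h → ∃ j, σ h = Tm.var j

theorem Env.mono {n m d : ℕ} {ρ σ : ℕ → Tm S} (h : Env n d ρ σ) (hm : m ≤ n) : Env m d ρ σ :=
  ⟨fun i hi j hj => h.1 i hi j (hj.trans hm), h.2⟩

theorem sub_up_succ (x k : Tm S) (σ : ℕ → Tm S) :
    ((x.ren Nat.succ).sub (Tm.up σ)).sub (one k) = x.sub σ := by
  rw [sub_ren, sub_sub]; congr 1; funext i
  simp [Tm.up, ren_succ_one]

theorem Env.inst {n d : ℕ} {ρ σ : ℕ → Tm S} (h : Env n d ρ σ) (g1 g2 g3 : Tm S) :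
    Env n (d + 1) (cons (Tm.var 0) ρ)
      (fun i => (cons g1 (cons g2 (cons g3 Tm.var)) i).sub σ) := by
  refine ⟨fun i hi j hj => ?_, fun i hi => ?_⟩
  · cases i with
    | zero => exact ok_var _ _ _
    | succ i =>
      rw [show 3 * (i + 1) = 3 * i + 1 + 1 + 1 by ring]
      simp only [cons_succ, Tm.sub]
      exact h.1 i (by omega) j hj
  · obtain ⟨k, rfl⟩ : ∃ k, i = k + 1 + 1 + 1 := ⟨i - 3, by omega⟩
    simp only [cons_succ, Tm.sub]
    exact h.2 k (by omega)

theorem Env.push {n d : ℕ} {ρ σ : ℕ → Tm S} (h : Env n d ρ σ) {P p : Tm S}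
    (hP : ∀ j, j ≤ n → Ok j P p) (a b : Tm S) :
    Env n (d + 1) (cons P ρ) (cons p (cons a (cons b σ))) := by
  refine ⟨fun i hi j hj => ?_, fun i hi => ?_⟩
  · cases i with
    | zero => exact hP j hj
    | succ i =>
      rw [show 3 * (i + 1) = 3 * i + 1 + 1 + 1 by ring]
      simp only [cons_succ]
      exact h.1 i (by omega) j hj
  · obtain ⟨k, rfl⟩ : ∃ k, i = k + 1 + 1 + 1 := ⟨i - 3, by omega⟩
    simp only [cons_succ]
    exact h.2 k (by omega)

theorem sn_body {M : Tm S} {ρ : ℕ → Tm S} (h : Sn (M.sub (cons (Tm.var 0) ρ))) :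
    Sn (M.sub (Tm.up ρ)) := by
  refine Sn.of_sub (σ := one (Tm.var 0)) ?_
  rw [sub_up_one]; exact h

/-- Normalization of the translation gives strong normalization of the source. -/
theorem sound : ∀ n : ℕ,
    (∀ d (M t : Tm S) ρ σ, St d M t → Env n d ρ σ → Ok n (M.sub ρ) (t.sub σ)) ∧
    (∀ d (M e : Tm S) ρ σ, Em d M e → Env n d ρ σ → Ev n (e.sub σ) → Sn (M.sub ρ)) := by
  intro n
  induction n using Nat.strong_induction_on with
  | _ n IH => ?_
  have hSt : ∀ d (M t : Tm S) ρ σ, St d M t → Env n d ρ σ → Ok n (M.sub ρ) (t.sub σ) := by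
    intro d M t ρ σ hst henv
    cases hst with
    | var hi => exact henv.1 _ hi n le_rfl
    | sort s t =>
      exact (ok_iff _ _ _).2 fun l k hc _ => sn_neu_apps (.sort s) (sn_sort s) hc.sn
    | @pi _ h A B T e x hh hem =>
      refine (ok_iff _ _ _).2 fun l k hc hev => ?_
      obtain ⟨m, hm, hev⟩ := hev.beta_inv
      obtain ⟨j, hj⟩ := henv.2 h hh
      simp only [Tm.sub, sub_up_succ] at hev
      rw [show (Tm.up σ (h + 1)).sub (one k) = σ h from by simp [Tm.up, ren_succ_one], hj] at hev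
      obtain ⟨m1, hm1, h1, -⟩ := hev.app_inv (.app _ (.var _))
      obtain ⟨m2, hm2, -, h2⟩ := h1.app_inv (.var _)
      exact sn_neu_apps (.pi _ _) ((IH m2 (by omega)).2 _ _ _ ρ σ hem
        (henv.mono (by omega)) h2) hc.sn
    | @app _ h1 h2 h3 M N tM tN eN T F u1 u2 hh1 hh2 hh3 hM hN hE =>
      refine (ok_iff _ _ _).2 fun l k hc hev => ?_
      obtain ⟨m, hm, hev⟩ := hev.beta_inv
      obtain ⟨j1, hj1⟩ := henv.2 h1 hh1
      obtain ⟨j2, hj2⟩ := henv.2 h2 hh2
      obtain ⟨j3, hj3⟩ := henv.2 h3 hh3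
      simp only [Tm.sub, sub_up_succ] at hev
      rw [show (Tm.up σ (h1 + 1)).sub (one k) = σ h1 from by simp [Tm.up, ren_succ_one],
        show (Tm.up σ (h2 + 1)).sub (one k) = σ h2 from by simp [Tm.up, ren_succ_one],
        hj1, hj2] at hev
      obtain ⟨m1, hm1, ha, hb⟩ := hev.app_inv (.app _ (.var _))
      obtain ⟨m2, hm2, -, heN⟩ := ha.app_inv (.var _)
      have snN : Sn (N.sub ρ) :=
        (IH m2 (by omega)).2 _ _ _ ρ σ hE (henv.mono (by omega)) heN
      obtain ⟨m3, hm3, -, htM⟩ := hb.app_inv (.var _)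
      have hok := (ok_iff _ _ _).1 ((IH m3 (by omega)).1 _ _ _ ρ σ hM (henv.mono (by omega)))
      refine hok (N.sub ρ :: l) _ ⟨(F.sub (Tm.up σ)).sub (one k), j3,
        (u1.sub (Tm.up (Tm.up σ))).sub (Tm.up (one k)),
        (u2.sub (Tm.up (Tm.up σ))).sub (Tm.up (one k)), tN.sub σ, k, ?_, snN, ?_, ?_⟩ htM
      · have e3 : ((Tm.up (Tm.up σ) (h3 + 2)).sub (Tm.up (one k))) = Tm.var (j3 + 1) := by
          simp [Tm.up, hj3, Tm.ren, Tm.sub, one]
        have eN : ((((tN.ren Nat.succ).ren Nat.succ).sub (Tm.up (Tm.up σ))).sub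
            (Tm.up (one k))) = (tN.sub σ).ren Nat.succ := by
          rw [sub_ren, sub_ren, sub_sub, ren_sub]
          congr 1; funext i
          simp only [Tm.up, cons_succ, Nat.succ_eq_add_one]
          rw [sub_ren, sub_ren]
          simp [Tm.up, one, Tm.ren, sub_var_comp]
        simp only [e3, eN]
        simp [Tm.up, Tm.sub, one, Tm.ren]
      · intro j hj
        exact (IH j (by omega)).1 _ _ _ ρ σ hN (henv.mono (by omega))
      · exact hc.mono fun P p hP j hj => hP j (by omega)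
    | @lam _ h1 h2 A M eA eM tM T W1 W2 W3 g1 g2 g3 hh1 hh2 hA hEM hM =>
      refine (ok_iff _ _ _).2 fun l k hc hev => ?_
      obtain ⟨m, hm, hev⟩ := hev.beta_inv
      obtain ⟨j1, hj1⟩ := henv.2 h1 hh1
      obtain ⟨j2, hj2⟩ := henv.2 h2 hh2
      simp only [Tm.sub] at hev
      rw [sub_up_succ, sub_up_succ, sub_up_succ,
        show (Tm.up σ (h1 + 1)).sub (one k) = σ h1 from by simp [Tm.up, ren_succ_one],
        show (Tm.up σ (h2 + 1)).sub (one k) = σ h2 from by simp [Tm.up, ren_succ_one],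
        show (Tm.up σ 0).sub (one k) = k from by simp [Tm.up, Tm.sub, one],
        hj1, hj2, sub_sub eM] at hev
      obtain ⟨m1, hm1, ha, hb⟩ := hev.app_inv (.app _ (.var _))
      obtain ⟨m2, hm2, -, heA⟩ := ha.app_inv (.var _)
      have snA : Sn (A.sub ρ) :=
        (IH m2 (by omega)).2 _ _ _ ρ σ hA (henv.mono (by omega)) heA
      obtain ⟨m3, hm3, hc1, hval⟩ := hb.app_inv (.app _ (.var _))
      obtain ⟨m4, hm4, -, heM⟩ := hc1.app_inv (.var _)
      have snM : Sn (M.sub (Tm.up ρ)) := sn_body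
        ((IH m4 (by omega)).2 _ _ _ _ _ hEM ((henv.mono (by omega)).inst g1 g2 g3) heM)
      cases l with
      | nil => exact sn_lam snA snM
      | cons P l =>
        obtain ⟨F, h, u1, u2, p, k', rfl, snP, hP, hc'⟩ := hc
        obtain ⟨m5, hm5, hval⟩ := hval.beta_inv
        simp only [Tm.sub] at hval
        rw [ren_succ_one p, ren_succ_one k'] at hval
        simp only [one, cons_zero, cons_succ] at hval
        obtain ⟨m6, hm6, -, hrun⟩ := hval.app_inv (.var _)
        generalize u1.sub (cons _ Tm.var) = a at hrun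
        generalize u2.sub (cons _ Tm.var) = b at hrun
        obtain ⟨m7, hm7, hrun⟩ := hrun.step_inv (.app _ (.app _ (.app _ (.beta _ _ _))))
        simp only [Tm.sub] at hrun
        obtain ⟨m8, hm8, hrun⟩ := hrun.step_inv (.app _ (.app _ (.beta _ _ _)))
        simp only [Tm.sub] at hrun
        obtain ⟨m9, hm9, hrun⟩ := hrun.step_inv (.app _ (.beta _ _ _))
        have e : ((((tM.sub (Tm.up (Tm.up (Tm.up σ)))).sub (Tm.up (Tm.up (one a)))).sub
            (Tm.up (one b))).sub (one p)) = tM.sub (cons p (cons b (cons a σ))) := by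
          rw [sub_sub, sub_sub, sub_sub]; congr 1; funext i
          rcases i with _ | _ | _ | i <;>
            simp [Tm.up, Tm.sub, one, sub_ren, ren_succ_cons, sub_var, Tm.ren, sub_var_comp]
        rw [e] at hrun
        have hok := (ok_iff _ _ _).1 ((IH m9 (by omega)).1 _ _ _ (cons P ρ) _ hM
          ((henv.mono (by omega)).push (fun j hj => hP j (by omega)) b a))
        have := hok l k' (hc'.mono fun Q q hQ j hj => hQ j (by omega)) hrun
        refine sn_expand snA snP ?_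
        rwa [sub_up_one]
  refine ⟨hSt, ?_⟩
  intro d M e ρ σ hem henv hev
  cases hem with
  | @star _ _ t K hst =>
    exact (ok_iff _ _ _).1 (hSt _ _ _ ρ σ hst henv) [] (K.sub σ) trivial hev
  | @wrap _ h _ e hh hem =>
    obtain ⟨j, hj⟩ := henv.2 h hh
    simp only [Tm.sub, hj] at hev
    obtain ⟨m, hm, -, h1⟩ := hev.app_inv (.var _)
    exact (IH m hm).2 _ _ _ ρ σ hem (henv.mono hm.le) h1
  | sort s e => exact sn_sort s
  | @pi _ h A B eA eB g1 g2 g3 hh hA hB =>
    obtain ⟨j, hj⟩ := henv.2 h hh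
    simp only [Tm.sub, hj] at hev
    obtain ⟨m, hm, h1, h2⟩ := hev.app_inv (.app _ (.var _))
    obtain ⟨m1, hm1, -, h3⟩ := h1.app_inv (.var _)
    rw [sub_sub eB] at h2
    exact sn_pi ((IH m1 (by omega)).2 _ _ _ ρ σ hA (henv.mono (by omega)) h3)
      (sn_body ((IH m hm).2 _ _ _ _ _ hB ((henv.mono hm.le).inst g1 g2 g3) h2))

theorem env_var (n d : ℕ) : Env n d (Tm.var : ℕ → Tm S) Tm.var :=
  ⟨fun i _ j _ => ok_var j i _, fun h _ => ⟨h, rfl⟩⟩

/-- An emission with a normal form shows that its source is strongly normalizing. -/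
theorem Em.sn {d : ℕ} {M e u : Tm S} (h : Em d M e) (hr : Red e u) (hu : u.Normal) : Sn M := by
  obtain ⟨n, hn⟩ := ev_of_red_normal hr hu
  have := (sound n).2 d M e Tm.var Tm.var h (env_var n d) (by rwa [sub_var])
  rwa [sub_var] at this

end Vale.Agent.P340.Mem
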