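import Vale.Agent.P340.M.Spec
import Vale.Agent.P340.M.Copy
import Vale.Agent.P340.M.Star

/-!
# P340, memory translation: every legal term has a legal translation
-/

namespace Vale.Agent.P340.Mem

open Tm

universe u

variable {S : Type u} [Nonempty S] {P : Spec S}

theorem Closed.func {φ e : S → S} (hc : Closed P φ e) : Func P := ⟨hc.ax_func, hc.rule_func⟩

variable {E : ℕ → Tm S → S → Prop} {φ e : S → S}

theorem sort_typed_of_conv {Γ : List (Tm S)} {A X : Tm S} {s : S} (h : H P E Γ A X)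
    (hc : Conv A (.sort s)) : ∃ k, (s, k) ∈ P.ax := by
  obtain ⟨C, h1, h2⟩ := hc
  obtain rfl := red_sort h2
  obtain ⟨k, hk, -⟩ := (h.red h1).gen_sort
  exact ⟨k, hk⟩

/-- The inhabitants of a top sort are sorts and products. -/
theorem top_shape {Γ : List (Tm S)} {M T : Tm S} (h : H P E Γ M T) :
    ∀ {s : S}, Conv T (.sort s) → (¬ ∃ k, (s, k) ∈ P.ax) →
      (∃ A B, M = .pi A B) ∨ ∃ t, M = .sort t := by
  induction h with
  | ax _ => intro s _ _; exact .inr ⟨_, rfl⟩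
  | gvar _ hA _ => intro s hc ht; exact absurd (sort_typed_of_conv hA hc) ht
  | var hA _ => intro s hc ht; exact absurd (sort_typed_of_conv (H.weak hA hA) hc) ht
  | @weak Γ' M' B' A' s' hM hA ih _ =>
    intro s hc ht
    rcases hM.correct with ⟨r, rfl⟩ | ⟨r, hB⟩
    · rcases ih hc ht with ⟨A, B, rfl⟩ | ⟨t, rfl⟩
      · exact .inl ⟨_, _, rfl⟩
      · exact .inr ⟨_, rfl⟩
    · exact absurd (sort_typed_of_conv (H.weak hB hA) hc) ht
  | prod _ _ _ _ _ => intro s _ _; exact .inl ⟨_, _, rfl⟩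
  | abs _ _ _ _ _ _ => intro s hc _; exact absurd hc.symm not_conv_sort_pi
  | app hf ha _ _ =>
    intro s hc ht
    rcases hf.correct with ⟨r, hr⟩ | ⟨r, hr⟩
    · cases hr
    · obtain ⟨r1, s1, t1, -, hB, -, -⟩ := hr.gen_pi
      exact absurd (sort_typed_of_conv (hB.subst ha) hc) ht
  | conv _ hB _ _ _ => intro s hc ht; exact absurd (sort_typed_of_conv hB hc) ht

theorem H.weaken1 {Γ : List (Tm S)} {M A C : Tm S} {s : S} (h : H P E Γ M A)
    (hC : H P E Γ C (.sort s)) : H P E (C :: Γ) (M.ren Nat.succ) (A.ren Nat.succ) := .weak h hC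

theorem H.thin_sort {Γ : List (Tm S)} {s k : S} (hw : Wf P E Γ) (h : (s, k) ∈ P.ax) :
    H P E Γ (.sort s) (.sort k) := by
  simpa [Tm.ren] using thin (H.ax (E := E) h) hw

theorem sort_conv_eq (hf : Func P) {Γ : List (Tm S)} {A B : Tm S} {s t : S}
    (hA : H P noGlobals Γ A (.sort s)) (hB : H P noGlobals Γ B (.sort t)) (hc : Conv A B) :
    s = t := by
  obtain ⟨C, h1, h2⟩ := hc
  exact hf.sort_unique (hA.red h1) (hB.red h2)

theorem ren_upr_succ_sub (B : Tm S) (r : ℕ → ℕ) (X : Tm S) :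
    ((B.ren Nat.succ).ren (upr r)).sub (one X) = B.ren r := by
  rw [ren_ren, sub_ren, ← sub_var_comp]; rfl

variable (K : Kit P)

/-- The type of continuations. -/
def kty (D : ℕ) (s : S) (C : Tm S) : Tm S := .pi C ((K.O s).ren (· + (D + 1)))

variable {K}

theorem atO_one (X : Tm S) (D : ℕ) (N : Tm S) :
    (X.ren (· + (D + 1))).sub (one N) = X.ren (· + D) := by
  rw [sub_ren, ← sub_var_comp]; congr 1

theorem atO_succ (X : Tm S) (D : ℕ) : (X.ren (· + D)).ren Nat.succ = X.ren (· + (D + 1)) := by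
  rw [ren_ren]; congr 1

variable {Δ : List (Tm S)} {D : ℕ}

theorem hO_at (hw : Wf P K.E Δ) (hD : Δ.length = D) (s : S) :
    H P K.E Δ ((K.O s).ren (· + D)) (.sort s) := by
  subst hD; simpa [Tm.ren] using thin (K.hO s) hw

theorem ho_at (hw : Wf P K.E Δ) (hD : Δ.length = D) (s : S) :
    H P K.E Δ ((K.o s).ren (· + D)) ((K.O s).ren (· + D)) := by
  subst hD; exact thin (K.ho s) hw

theorem cast_at (hD : Δ.length = D) {r s t : S} (hr : (r, s, t) ∈ P.rule) {X : Tm S}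
    (hX : H P K.E Δ X ((K.O r).ren (· + D))) :
    H P K.E Δ (.app (.var (K.cast r s + D)) X) ((K.O s).ren (· + D)) := by
  subst hD
  have h := H.app (A := (K.O r).ren (· + Δ.length))
    (B := ((K.O s).ren Nat.succ).ren (upr (· + Δ.length))) (thin (K.hcast hr) hX.wf) hX
  rwa [ren_upr_succ_sub] at h

theorem pair_at (hD : Δ.length = D) {s t : S} (hs : (s, s, t) ∈ P.rule) {X Y : Tm S}
    (hX : H P K.E Δ X ((K.O s).ren (· + D))) (hY : H P K.E Δ Y ((K.O s).ren (· + D))) :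
    H P K.E Δ (.app (.app (.var (K.pair s + D)) X) Y) ((K.O s).ren (· + D)) := by
  subst hD
  have h := H.app (thin (K.hpair hs) hX.wf) hX
  simp only [Tm.ren, Tm.sub] at h
  rw [ren_upr_succ_sub] at h
  have h' := H.app h hY
  have e : ((((K.O s).ren (· + 2)).ren (upr (upr (· + Δ.length)))).sub (Tm.up (one X))).sub (one Y)
      = (K.O s).ren (· + Δ.length) := by
    rw [ren_ren, sub_ren, sub_sub, ← sub_var_comp]; congr 1
  rwa [e] at h'

theorem T_typed (hc : Closed P φ e) (hD : Δ.length = D) {C : Tm S} {s : S}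
    (hC : H P K.E Δ C (.sort (φ s))) : H P K.E Δ (T K.O D (φ s) C) (.sort (φ s)) := by
  obtain ⟨t, h1, h2⟩ := hc.neg s
  have hk : H P K.E Δ (kty K D (φ s) C) (.sort t) :=
    .prod hC (hO_at (.cons hC.wf hC) (by simp [hD]) (φ s)) h1
  exact .prod hk (hO_at (.cons hC.wf hk) (by simp [hD]) (φ s)) h2

theorem kty_typed (hc : Closed P φ e) (hD : Δ.length = D) {C : Tm S} {s : S}
    (hC : H P K.E Δ C (.sort (φ s))) : ∃ t, H P K.E Δ (kty K D (φ s) C) (.sort t) := by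
  obtain ⟨r, s', t, hk, -, -, -⟩ := (T_typed hc hD hC).gen_pi
  exact ⟨r, hk⟩

theorem lamk_typed (hc : Closed P φ e) (hD : Δ.length = D) {C body : Tm S} {s : S}
    (hC : H P K.E Δ C (.sort (φ s)))
    (hb : H P K.E (kty K D (φ s) C :: Δ) body ((K.O (φ s)).ren (· + (D + 1)))) :
    H P K.E Δ (.lam (kty K D (φ s) C) body) (T K.O D (φ s) C) := by
  obtain ⟨t, hk⟩ := kty_typed hc hD hC
  exact .abs hk hb (T_typed hc hD hC)

theorem tinh (hc : Closed P φ e) (hD : Δ.length = D) {C : Tm S} {s : S}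
    (hC : H P K.E Δ C (.sort (φ s))) : ∃ g, H P K.E Δ g (T K.O D (φ s) C) := by
  obtain ⟨t, hk⟩ := kty_typed hc hD hC
  exact ⟨_, lamk_typed hc hD hC (ho_at (.cons hC.wf hk) (by simp [hD]) (φ s))⟩

theorem run_typed (hc : Closed P φ e) (hD : Δ.length = D) {C t : Tm S} {s : S}
    (hC : H P K.E Δ C (.sort (φ s))) (ht : H P K.E Δ t (T K.O D (φ s) C)) :
    ∃ k, H P K.E Δ (.app t k) ((K.O (φ s)).ren (· + D)) := by
  obtain ⟨u, hk⟩ := kty_typed hc hD hC
  refine ⟨.lam C ((K.o (φ s)).ren (· + (D + 1))), ?_⟩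
  have h := H.app ht (H.abs hC (ho_at (.cons hC.wf hC) (by simp [hD]) (φ s)) hk)
  rwa [atO_one] at h

theorem gen_inh {C : Tm S} {s k : S} (hk : (s, k) ∈ P.ax) (hC : H P K.E Δ C (.sort s)) :
    ∃ g, H P K.E Δ g C :=
  ⟨_, by simpa [Tm.ren, upr, Tm.sub, one] using H.app (thin (K.hgen hk) hC.wf) hC⟩

theorem inh_normal : ∀ (N : Tm S) {Δ : List (Tm S)} {s : S}, N.Normal →
    H P K.E Δ N (.sort s) → ∃ g, H P K.E Δ g N := by
  intro N
  induction N with
  | pi A B _ ihB =>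
    intro Δ s hN h
    by_cases ht : ∃ k, (s, k) ∈ P.ax
    · exact gen_inh ht.choose_spec h
    obtain ⟨r, s', t, hA, hB, -, -⟩ := h.gen_pi
    obtain ⟨g, hg⟩ := ihB (fun X hX => hN _ (.piR _ hX)) hB
    exact ⟨.lam A g, .abs hA hg h⟩
  | sort t =>
    intro Δ s _ h
    exact ⟨_, hO_at (K := K) h.wf rfl t⟩
  | var i =>
    intro Δ s _ h
    by_cases ht : ∃ k, (s, k) ∈ P.ax
    · exact gen_inh ht.choose_spec h
    rcases top_shape h .rfl' ht with ⟨A, B, e⟩ | ⟨t, e⟩ <;> cases e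
  | app f a _ _ =>
    intro Δ s _ h
    by_cases ht : ∃ k, (s, k) ∈ P.ax
    · exact gen_inh ht.choose_spec h
    rcases top_shape h .rfl' ht with ⟨A, B, e⟩ | ⟨t, e⟩ <;> cases e
  | lam A M _ _ =>
    intro Δ s _ h
    by_cases ht : ∃ k, (s, k) ∈ P.ax
    · exact gen_inh ht.choose_spec h
    rcases top_shape h .rfl' ht with ⟨A', B, e⟩ | ⟨t, e⟩ <;> cases e

theorem inh {C : Tm S} {s : S} (hC : H P K.E Δ C (.sort s)) : ∃ g, H P K.E Δ g C := by
  obtain ⟨N, hr, hN⟩ := K.wn hC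
  obtain ⟨g, hg⟩ := inh_normal N hN (hC.red hr)
  exact ⟨g, .conv hg hC (Conv.of_red hr).symm⟩

/-! ## The two contexts -/

variable (K φ)

/-- The first copy. -/
noncomputable def W (Γ : List (Tm S)) (M : Tm S) : Tm S := (wv P K.O φ Γ M).1

/-- The second copy. -/
noncomputable def V (Γ : List (Tm S)) (M : Tm S) : Tm S := (wv P K.O φ Γ M).2

/-- The context of the unpadded copies. -/
noncomputable def ctx2 : List (Tm S) → List (Tm S)
  | [] => []
  | A :: Γ => (W φ K Γ A).ren Nat.succ :: W φ K Γ A :: ctx2 Γ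

/-- The embedding of the unpadded copies below `n` source variables. -/
def emb : ℕ → ℕ → ℕ
  | 0, i => i
  | _ + 1, 0 => 1
  | _ + 1, 1 => 2
  | n + 1, i + 2 => emb n i + 3

/-- The first copy, in the full context. -/
noncomputable def W3 (Γ : List (Tm S)) (M : Tm S) : Tm S := (W φ K Γ M).ren (emb Γ.length)

/-- The second copy, in the full context. -/
noncomputable def V3 (Γ : List (Tm S)) (M : Tm S) : Tm S := (V φ K Γ M).ren (emb Γ.length)

/-- The full context. -/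
noncomputable def ctx3 : List (Tm S) → List (Tm S)
  | [] => []
  | A :: Γ => (T K.O (3 * Γ.length) (φ (srt P Γ A)) (V3 φ K Γ A)).ren (· + 2) ::
      (W3 φ K Γ A).ren Nat.succ :: W3 φ K Γ A :: ctx3 Γ

variable {K φ}

omit [Nonempty S] in
theorem emb_glob : ∀ (n g : ℕ), emb n (2 * n + g) = 3 * n + g
  | 0, g => by simp [emb]
  | n + 1, g => by
    rw [show 2 * (n + 1) + g = (2 * n + g) + 2 by ring]
    simp only [emb, emb_glob n g]; ring

theorem ctx2_length : ∀ Γ : List (Tm S), (ctx2 φ K Γ).length = 2 * Γ.length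
  | [] => rfl
  | A :: Γ => by simp only [ctx2, List.length_cons, ctx2_length Γ]; ring

theorem ctx3_length : ∀ Γ : List (Tm S), (ctx3 φ K Γ).length = 3 * Γ.length
  | [] => rfl
  | A :: Γ => by simp only [ctx3, List.length_cons, ctx3_length Γ]; ring

theorem ren_two (X : Tm S) : (X.ren Nat.succ).ren Nat.succ = X.ren (· + 2) := by
  rw [ren_ren]

variable (K φ) in
/-- The type of the second copy of the inhabitants of `A`. -/
noncomputable def WV (Γ : List (Tm S)) (A : Tm S) : Tm S :=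
  match A with
  | .sort k => .sort (φ k)
  | A => W φ K Γ A

theorem WV_typed (hc : Closed P φ e) {Γ : List (Tm S)} {A : Tm S} {s : S}
    (h : H P noGlobals Γ A (.sort s)) : WV φ K Γ A = W φ K Γ A := by
  cases A with
  | sort k =>
    obtain ⟨t, ht, -⟩ := h.gen_sort
    simp [WV, W, wv, hc.fixed ht]
  | _ => rfl

/-- The unpadded copies are legal. -/
theorem copy_typed (hc : Closed P φ e) {Γ : List (Tm S)} {M A : Tm S} (h : H P noGlobals Γ M A) :
    H P K.E (ctx2 φ K Γ) (W φ K Γ M) (W φ K Γ A) ∧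
      H P K.E (ctx2 φ K Γ) (V φ K Γ M) (WV φ K Γ A) := by
  have hf := hc.func
  induction h with
  | @ax s t hp =>
    refine ⟨.ax hp, ?_⟩
    show H P K.E [] ((K.O (φ (axs P s))).ren (· + 0)) (.sort (φ t))
    rw [axs_eq hf hp]
    exact hO_at .nil rfl _
  | gvar he _ _ => exact he.elim
  | @var Γ A s hA ih =>
    have hW : H P K.E (ctx2 φ K Γ) (W φ K Γ A) (.sort s) := ih.1
    have hW' := H.weak hW hW
    have eA : W φ K (A :: Γ) (A.ren Nat.succ) = ((W φ K Γ A).ren Nat.succ).ren Nat.succ := by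
      rw [ren_two]; exact (wv_wk hf hA hA).1
    rw [WV_typed hc (H.weak hA hA), eA]
    exact ⟨.weak (.var hW) hW', .var hW'⟩
  | @weak Γ M B A s hM hA ihM ihA =>
    have hW : H P K.E (ctx2 φ K Γ) (W φ K Γ A) (.sort s) := ihA.1
    have hW' := H.weak hW hW
    have e0 : W φ K (A :: Γ) (B.ren Nat.succ) = ((W φ K Γ B).ren Nat.succ).ren Nat.succ ∧
        WV φ K (A :: Γ) (B.ren Nat.succ) = ((WV φ K Γ B).ren Nat.succ).ren Nat.succ := by
      rcases hM.correct with ⟨r, rfl⟩ | ⟨r, hB⟩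
      · exact ⟨rfl, rfl⟩
      · rw [WV_typed hc (H.weak hB hA), WV_typed hc hB, ren_two, and_self]
        exact (wv_wk hf hB hA).1
    have e1 : W φ K (A :: Γ) (M.ren Nat.succ) = ((W φ K Γ M).ren Nat.succ).ren Nat.succ := by
      rw [ren_two]; exact (wv_wk hf hM hA).1
    have e2 : V φ K (A :: Γ) (M.ren Nat.succ) = ((V φ K Γ M).ren Nat.succ).ren Nat.succ := by
      rw [ren_two]; exact (wv_wk hf hM hA).2
    rw [e0.1, e0.2, e1, e2]
    exact ⟨.weak (.weak ihM.1 hW) hW', .weak (.weak ihM.2 hW) hW'⟩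
  | @prod Γ A B r s t hA hB hr ihA ihB =>
    have hW : H P K.E (ctx2 φ K Γ) (W φ K Γ A) (.sort r) := ihA.1
    have hW' := H.weak hW hW
    refine ⟨.prod hW (.prod hW' ihB.1 hr) (hc.idem hr), ?_⟩
    have hV2 : H P K.E (ctx2 φ K (A :: Γ)) ((V φ K Γ A).ren (· + 2)) (.sort (φ r)) := by
      rw [← ren_two]; exact H.weak (H.weak (ihA.2 : H P K.E _ _ (.sort (φ r))) hW) hW'
    have h1 := T_typed (D := 2 * (Γ.length + 1)) hc (by rw [ctx2_length]; rfl) hV2
    have h2 := H.weak (T_typed (D := 2 * (Γ.length + 1)) hc (by rw [ctx2_length]; rfl)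
      (ihB.2 : H P K.E _ _ (.sort (φ s)))) h1
    show H P K.E _ (wv P K.O φ Γ (.pi A B)).2 (.sort (φ t))
    simp only [wv, srt_eq hf hA, srt_eq hf hB]
    obtain ⟨v1, v2⟩ := hc.value hr
    obtain ⟨n, -, hn⟩ := hc.neg t
    exact .prod hW (.prod hW' (.prod h1 h2 v1) v2) v2
  | @abs Γ A B M r s hA hM hp ihA ihM ihp =>
    have hW : H P K.E (ctx2 φ K Γ) (W φ K Γ A) (.sort r) := ihA.1
    have hW' := H.weak hW hW
    have hP : H P K.E (ctx2 φ K Γ)
        (.pi (W φ K Γ A) (.pi ((W φ K Γ A).ren Nat.succ) (W φ K (A :: Γ) B)))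
        (.sort s) := ihp.1
    obtain ⟨r', s', t', -, hP', -, -⟩ := hP.gen_pi
    obtain ⟨r1, s1, t1, -, hB, -, -⟩ := hp.gen_pi
    rw [WV_typed hc hB] at ihM
    exact ⟨.abs hW (.abs hW' ihM.1 hP') hP, .abs hW (.abs hW' ihM.2 hP') hP⟩
  | @app Γ A B M N hM hN ihM ihN =>
    rcases hM.correct with ⟨t, ht⟩ | ⟨t, ht⟩
    · cases ht
    obtain ⟨r, s', t', hA, hB, -, -⟩ := ht.gen_pi
    rw [WV_typed hc hA] at ihN
    rw [WV_typed hc (hB.subst hN)]
    have eB : W φ K Γ (B.sub (one N)) =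
        (W φ K (A :: Γ) B).sub (cons (V φ K Γ N) (cons (W φ K Γ N) Tm.var)) :=
      (wv_one hf hB hN).1
    have key : ∀ {f : Tm S}, H P K.E (ctx2 φ K Γ) f (W φ K Γ (.pi A B)) →
        H P K.E (ctx2 φ K Γ) (.app (.app f (W φ K Γ N)) (V φ K Γ N))
          (W φ K Γ (B.sub (one N))) := by
      intro f hfty
      have h1 : H P K.E (ctx2 φ K Γ) (.app f (W φ K Γ N))
          (.pi (W φ K Γ A) ((W φ K (A :: Γ) B).sub (Tm.up (one (W φ K Γ N))))) := by
        have := H.app hfty ihN.1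
        simp only [Tm.sub] at this
        rwa [show ((wv P K.O φ Γ A).1.ren Nat.succ).sub (one (W φ K Γ N)) = W φ K Γ A from
          ren_succ_one _ _] at this
      have h2 := H.app h1 ihN.2
      rw [sub_up_one] at h2
      rwa [eB]
    exact ⟨key ihM.1, key ihM.2⟩
  | @conv Γ M A B s hM hB hcv ihM ihB =>
    have ec : Conv (W φ K Γ A) (W φ K Γ B) := (wv_conv hf (H.typ hM) (.inr ⟨_, hB⟩) hcv).1
    have eA : WV φ K Γ A = W φ K Γ A := by
      rcases hM.correct with ⟨k, rfl⟩ | ⟨k, hA⟩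
      · obtain ⟨u, hu⟩ := sort_typed_of_conv hB hcv.symm
        simp [WV, W, wv, hc.fixed hu]
      · exact WV_typed hc hA
    rw [WV_typed hc hB]
    rw [eA] at ihM
    exact ⟨.conv ihM.1 ihB.1 ec, .conv ihM.2 ihB.1 ec⟩

theorem H.renamed {Γ Δ : List (Tm S)} {M A : Tm S} {r : ℕ → ℕ} (h : H P E Γ M A)
    (hs : Sub P E Γ (fun i => Tm.var (r i)) Δ) : H P E Δ (M.ren r) (A.ren r) := by
  have := h.sub hs
  rwa [sub_var_comp, sub_var_comp] at this

theorem emb_sub (hc : Closed P φ e) : ∀ {Γ : List (Tm S)}, Wf P noGlobals Γ →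
    Sub P K.E (ctx2 φ K Γ) (fun i => Tm.var (emb Γ.length i)) (ctx3 φ K Γ) := by
  intro Γ hw
  induction hw with
  | nil => exact ⟨.nil, fun i => rfl⟩
  | @cons Γ A s hwf hA ih =>
    obtain ⟨hW, hV⟩ := copy_typed (K := K) hc hA
    have hW3 : H P K.E (ctx3 φ K Γ) (W3 φ K Γ A) (.sort s) := H.renamed hW ih
    have hW3' := H.weak hW3 hW3
    have hX : H P K.E ((W3 φ K Γ A).ren Nat.succ :: W3 φ K Γ A :: ctx3 φ K Γ)
        ((T K.O (3 * Γ.length) (φ (srt P Γ A)) (V3 φ K Γ A)).ren (· + 2)) (.sort (φ s)) := by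
      rw [srt_eq hc.func hA, ← ren_two]
      exact H.weak (H.weak (T_typed (D := 3 * Γ.length) hc (ctx3_length Γ)
        (H.renamed hV ih : H P K.E _ _ (.sort (φ s)))) hW3) hW3'
    refine ⟨⟨?_, ?_⟩, ?_⟩
    · have h3 := ((ih.weak hW3).weak hW3').weak hX
      simpa [Tm.ren, emb, ctx3, Nat.add_assoc] using h3
    · have := H.weak (H.weak (H.var hW3) hW3') hX
      simp only [Tm.ren, sub_var_comp, ren_ren] at this ⊢
      simpa [emb, ctx3, W3, ren_ren, Nat.add_assoc] using this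
    · have := H.weak (H.var hW3') hX
      simp only [Tm.ren, sub_var_comp, ren_ren] at this ⊢
      simpa [emb, ctx3, W3, ren_ren, Nat.add_assoc] using this

theorem copy3_typed (hc : Closed P φ e) {Γ : List (Tm S)} {M A : Tm S} {s : S}
    (h : H P noGlobals Γ M A) (hA : H P noGlobals Γ A (.sort s)) :
    H P K.E (ctx3 φ K Γ) (W3 φ K Γ M) (W3 φ K Γ A) ∧
      H P K.E (ctx3 φ K Γ) (V3 φ K Γ M) (W3 φ K Γ A) := by
  have h2 := (copy_typed (K := K) hc h).2
  rw [WV_typed hc hA] at h2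
  exact ⟨H.renamed (copy_typed hc h).1 (emb_sub hc h.wf), H.renamed h2 (emb_sub hc h.wf)⟩

theorem V3_typed (hc : Closed P φ e) {Γ : List (Tm S)} {A : Tm S} {s : S}
    (h : H P noGlobals Γ A (.sort s)) : H P K.E (ctx3 φ K Γ) (V3 φ K Γ A) (.sort (φ s)) :=
  H.renamed (copy_typed hc h).2 (emb_sub hc h.wf)

theorem W3_typed (hc : Closed P φ e) {Γ : List (Tm S)} {A : Tm S} {s : S}
    (h : H P noGlobals Γ A (.sort s)) : H P K.E (ctx3 φ K Γ) (W3 φ K Γ A) (.sort s) :=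
  H.renamed (copy_typed hc h).1 (emb_sub hc h.wf)

theorem ctx3_head (hc : Closed P φ e) {Γ : List (Tm S)} {A : Tm S} {s : S}
    (hA : H P noGlobals Γ A (.sort s)) :
    H P K.E ((W3 φ K Γ A).ren Nat.succ :: W3 φ K Γ A :: ctx3 φ K Γ)
      ((T K.O (3 * Γ.length) (φ (srt P Γ A)) (V3 φ K Γ A)).ren (· + 2)) (.sort (φ s)) := by
  have hW := W3_typed (K := K) hc hA
  rw [srt_eq hc.func hA, ← ren_two]
  exact H.weak (H.weak (T_typed hc (ctx3_length Γ) (V3_typed hc hA)) hW) (H.weak hW hW)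

/-- Generic instances for the three copies of a bound variable. -/
theorem generic (hc : Closed P φ e) {Γ : List (Tm S)} {A : Tm S} {s : S}
    (hA : H P noGlobals Γ A (.sort s)) :
    ∃ g1 g2 g3, Sub P K.E (ctx3 φ K (A :: Γ)) (cons g1 (cons g2 (cons g3 Tm.var))) (ctx3 φ K Γ) := by
  have hW := W3_typed (K := K) hc hA
  obtain ⟨g, hg⟩ := inh hW
  obtain ⟨g1, hg1⟩ := tinh (D := 3 * Γ.length) hc (ctx3_length Γ) (V3_typed (K := K) hc hA)
  refine ⟨g1, g, g, ⟨Sub.one hg, ?_⟩, ?_⟩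
  · show H P K.E _ g (((W3 φ K Γ A).ren Nat.succ).sub (one g))
    rwa [ren_succ_one]
  · show H P K.E _ g1 (((T K.O (3 * Γ.length) (φ (srt P Γ A)) (V3 φ K Γ A)).ren (· + 2)).sub
      (cons g (cons g Tm.var)))
    rw [srt_eq hc.func hA, sub_ren]
    rwa [show (fun n => cons g (cons g Tm.var) (n + 2)) = (Tm.var : ℕ → Tm S) from rfl, sub_var]

theorem V3_pi (hc : Closed P φ e) {Γ : List (Tm S)} {A B : Tm S} {r s : S}
    (hA : H P noGlobals Γ A (.sort r)) (hB : H P noGlobals (A :: Γ) B (.sort s)) :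
    V3 φ K Γ (.pi A B) = .pi (W3 φ K Γ A) (.pi ((W3 φ K Γ A).ren Nat.succ)
      (.pi ((T K.O (3 * Γ.length) (φ r) (V3 φ K Γ A)).ren (· + 2))
        (T K.O (3 * (A :: Γ).length) (φ s) (V3 φ K (A :: Γ) B)))) := by
  simp only [V3, V, wv, srt_eq hc.func hA, srt_eq hc.func hB, Tm.ren, W3, W]
  congr 1; congr 1
  · rw [ren_ren, ren_ren]; congr 1
  · congr 1
    · rw [T_ren, ← sub_var_comp (T _ _ _ _), T_sub K.O (D' := 3 * Γ.length + 2)
        (fun g => ?_), sub_var_comp, ren_ren, ren_ren]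
      · congr 1
      · rw [show 2 * (Γ.length + 1) + g = (2 * Γ.length + g) + 2 by ring]
        simp [upr, emb_glob]; ring
    · rw [ren_ren, ← sub_var_comp (T _ _ _ _), T_sub K.O (D' := 3 * (A :: Γ).length)
        (fun g => ?_), sub_var_comp]
      · congr 1
        congr 1; funext i
        rcases i with _ | _ | i <;> simp [upr, emb, List.length_cons]
      · rw [show 2 * (Γ.length + 1) + g = (2 * Γ.length + g) + 2 by ring]
        simp [upr, emb_glob]; ring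

theorem star_var (hc : Closed P φ e) {Γ : List (Tm S)} {k : ℕ} {A : Tm S}
    (hl : Look noGlobals Γ k A) : Wf P noGlobals Γ → ∃ s, H P noGlobals Γ A (.sort s) ∧
      H P K.E (ctx3 φ K Γ) (.var (3 * k)) (T K.O (3 * Γ.length) (φ s) (V3 φ K Γ A)) := by
  induction hl with
  | glob h => exact h.elim
  | @here Γ A =>
    intro hw
    obtain ⟨s, hA⟩ := hw.head
    refine ⟨s, .weak hA hA, ?_⟩
    have hh := H.var (ctx3_head (K := K) hc hA)
    have e1 : V3 φ K (A :: Γ) (A.ren Nat.succ) = (V3 φ K Γ A).ren (· + 3) := by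
      simp only [V3, V, (wv_wk hc.func hA hA).2, ren_ren]
      congr 1
    rw [srt_eq hc.func hA, ren_ren] at hh
    rw [e1, show 3 * (A :: Γ).length = 3 * Γ.length + 3 by simp [Nat.mul_add], ← T_ren]
    simpa [ctx3, srt_eq hc.func hA] using hh
  | @there Γ A B k _ ih =>
    intro hw
    cases hw with
    | @cons _ _ r hwf hA =>
      obtain ⟨s, hB, ht⟩ := ih hwf
      refine ⟨s, .weak hB hA, ?_⟩
      have hW := W3_typed (K := K) hc hA
      have hh := H.weak (H.weak (H.weak ht hW) (H.weak hW hW)) (ctx3_head (K := K) hc hA)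
      have e1 : V3 φ K (A :: Γ) (B.ren Nat.succ) = (V3 φ K Γ B).ren (· + 3) := by
        simp only [V3, V, (wv_wk hc.func hB hA).2, ren_ren]
        congr 1
      rw [e1, show 3 * (A :: Γ).length = 3 * Γ.length + 3 by simp [Nat.mul_add], ← T_ren]
      simp only [ren_ren, Tm.ren] at hh
      simpa [ctx3, Nat.mul_add] using hh

theorem V3_one (hc : Closed P φ e) {Γ : List (Tm S)} {A B N X : Tm S}
    (hB : H P noGlobals (A :: Γ) B X) (hN : H P noGlobals Γ N A) (p : Tm S) :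
    V3 φ K Γ (B.sub (one N)) =
      (V3 φ K (A :: Γ) B).sub (cons p (cons (V3 φ K Γ N) (cons (W3 φ K Γ N) Tm.var))) := by
  simp only [V3, V, (wv_one hc.func hB hN).2, ren_sub, sub_ren]
  congr 1; funext i
  rcases i with _ | _ | i <;> simp [emb, Tm.ren, W3, W]

/-- Retyping along conversion. -/
theorem star_conv (hc : Closed P φ e) {Γ : List (Tm S)} {M T0 T1 t : Tm S} {s0 s1 : S}
    (h0 : H P noGlobals Γ T0 (.sort s0)) (h1 : H P noGlobals Γ T1 (.sort s1))
    (hcv : Conv T0 T1) (hst : St Γ.length M t)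
    (ht : H P K.E (ctx3 φ K Γ) t (T K.O (3 * Γ.length) (φ s0) (V3 φ K Γ T0))) :
    ∃ t, St Γ.length M t ∧ H P K.E (ctx3 φ K Γ) t (T K.O (3 * Γ.length) (φ s1) (V3 φ K Γ T1)) := by
  obtain rfl := sort_conv_eq hc.func h0 h1 hcv
  refine ⟨t, hst, .conv ht (T_typed hc (ctx3_length Γ) (V3_typed hc h1)) ?_⟩
  exact Conv.pi (Conv.pi
    ((wv_conv hc.func (.inr ⟨_, h0⟩) (.inr ⟨_, h1⟩) hcv).2.ren _) .rfl') .rfl'

variable (K φ e)

/-- A term has a typed translation at every sorted type. -/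
def HasStar (Γ : List (Tm S)) (M : Tm S) : Prop :=
  ∀ T0 s, H P noGlobals Γ M T0 → H P noGlobals Γ T0 (.sort s) →
    ∃ t, St Γ.length M t ∧ H P K.E (ctx3 φ K Γ) t (T K.O (3 * Γ.length) (φ s) (V3 φ K Γ T0))

/-- A type has a typed emission. -/
def HasEm (Γ : List (Tm S)) (M : Tm S) : Prop :=
  ∀ T0 s, H P noGlobals Γ M T0 → Conv T0 (.sort s) →
    ∃ m, Em Γ.length M m ∧ H P K.E (ctx3 φ K Γ) m ((K.O (e s)).ren (· + 3 * Γ.length))

variable {K φ e}

theorem em_of_star (hc : Closed P φ e) {Γ : List (Tm S)} {M T0 : Tm S} {s k : S}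
    (h : HasStar φ K Γ M) (hM : H P noGlobals Γ M T0) (hcv : Conv T0 (.sort s))
    (hk : (s, k) ∈ P.ax) :
    ∃ m, Em Γ.length M m ∧ H P K.E (ctx3 φ K Γ) m ((K.O (e s)).ren (· + 3 * Γ.length)) := by
  have hs := H.thin_sort hM.wf hk
  obtain ⟨t, hst, ht⟩ := h _ k (.conv hM hs hcv) hs
  obtain ⟨q, hq⟩ := run_typed hc (ctx3_length Γ) (V3_typed hc hs) ht
  obtain ⟨u, hu⟩ := (hc.poly hk).2.1
  exact ⟨_, .wrap (Nat.le_add_left _ _) (.star hst), cast_at (ctx3_length Γ) hu hq⟩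

/-- An emission of a product, in the collecting sort of the sort of the product. -/
theorem em_pi (hc : Closed P φ e) {Γ : List (Tm S)} {A B : Tm S} {r s t : S}
    (hA : H P noGlobals Γ A (.sort r)) (hB : H P noGlobals (A :: Γ) B (.sort s))
    (hr : (r, s, t) ∈ P.rule) (ihA : HasEm φ e K Γ A) (ihB : HasEm φ e K (A :: Γ) B) :
    ∃ m, Em Γ.length (.pi A B) m ∧
      H P K.E (ctx3 φ K Γ) m ((K.O (e t)).ren (· + 3 * Γ.length)) := by
  obtain ⟨eA, mA, hA'⟩ := ihA _ r hA .rfl'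
  obtain ⟨eB, mB, hB'⟩ := ihB _ s hB .rfl'
  obtain ⟨g1, g2, g3, hg⟩ := generic (K := K) hc hA
  obtain ⟨u, hu⟩ := (hc.emit hr).2.1
  obtain ⟨u', hu'⟩ := (hc.emit hr).2.2
  obtain ⟨w, hw⟩ := hc.collect t
  have hA'' := cast_at (ctx3_length Γ) hu hA'
  have hB'' := (cast_at (ctx3_length (A :: Γ)) hu' hB').sub hg
  rw [ren_add_sub (D' := 3 * Γ.length) _ (fun g => by
    rw [show 3 * (A :: Γ).length + g = (3 * Γ.length + g) + 1 + 1 + 1 by
      simp [List.length_cons]; ring]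
    rfl)] at hB''
  exact ⟨_, .pi (Nat.le_add_left _ _) (.wrap (Nat.le_add_left _ _) mA)
    (.wrap (d := Γ.length + 1) (by simp [List.length_cons]) mB),
    pair_at (ctx3_length Γ) hw hA'' hB''⟩

theorem star_pi (hc : Closed P φ e) {Γ : List (Tm S)} {A B : Tm S}
    (ihA : HasEm φ e K Γ A) (ihB : HasEm φ e K (A :: Γ) B) : HasStar φ K Γ (.pi A B) := by
  intro T0 s hM hT
  obtain ⟨r, s', t, hA, hB, hr, hcv⟩ := hM.gen_pi
  obtain ⟨k, hk⟩ := sort_typed_of_conv hT hcv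
  obtain rfl : s = k := sort_conv_eq hc.func hT (H.thin_sort hM.wf hk) hcv
  obtain ⟨m, mm, hm⟩ := em_pi (K := K) hc hA hB hr ihA ihB
  obtain ⟨u, hu⟩ := (hc.poly hk).2.2
  obtain ⟨w, hw', -⟩ := hc.neg s
  have hm' := cast_at (ctx3_length Γ) hu hm
  have hV := V3_typed (K := K) hc hT
  obtain ⟨q, hq⟩ := kty_typed hc (ctx3_length Γ) hV
  have hw := Wf.cons hV.wf hq
  have hm'' := H.weak hm' hq
  rw [atO_succ] at hm''
  have := pair_at (D := 3 * Γ.length + 1) (by simp [ctx3_length]) hw' hm''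
    (ho_at (D := 3 * Γ.length + 1) hw (by simp [ctx3_length]) (φ s))
  refine ⟨_, ?_, lamk_typed hc (ctx3_length Γ) hV this⟩
  exact .pi (h := K.pair (φ s) + 3 * Γ.length) (Nat.le_add_left _ _)
    (.wrap (Nat.le_add_left _ _) mm)

theorem star_lam (hc : Closed P φ e) {Γ : List (Tm S)} {A M : Tm S}
    (ihA : HasEm φ e K Γ A) (ihM : HasStar φ K (A :: Γ) M) : HasStar φ K Γ (.lam A M) := by
  intro T0 s0 hM0 hT
  obtain ⟨B, r, t, hA, hM, hpi, hcv⟩ := hM0.gen_lam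
  obtain ⟨r', s, t', hA', hB, hr, hct⟩ := hpi.gen_pi
  obtain rfl := hc.func.sort_unique hA hA'
  obtain rfl := conv_sort hct
  obtain ⟨eA, mA, hA1⟩ := ihA _ r hA .rfl'
  obtain ⟨tM, sM, hM1⟩ := ihM B s hM hB
  obtain ⟨g1, g2, g3, hg⟩ := generic (K := K) hc hA
  obtain ⟨q, hq1⟩ := run_typed hc (ctx3_length (A :: Γ)) (V3_typed hc hB) hM1
  obtain ⟨u, hu⟩ := (hc.link hr).1
  obtain ⟨v, hv⟩ := (hc.emit hr).1
  obtain ⟨w, hw, -⟩ := hc.neg t
  have hE := (cast_at (ctx3_length (A :: Γ)) hu hq1).sub hg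
  rw [ren_add_sub (D' := 3 * Γ.length) _ (fun g => by
    rw [show 3 * (A :: Γ).length + g = (3 * Γ.length + g) + 1 + 1 + 1 by
      simp [List.length_cons]; ring]
    rfl)] at hE
  have hV := V3_typed (K := K) hc hpi
  obtain ⟨q', hk⟩ := kty_typed hc (ctx3_length Γ) hV
  have hW := W3_typed (K := K) hc hA
  have hpi' := hV
  rw [V3_pi hc hA hB] at hpi'
  obtain ⟨_, _, _, -, hp2, -, -⟩ := hpi'.gen_pi
  obtain ⟨_, _, _, -, hp3, -, -⟩ := hp2.gen_pi
  have hX3 := ctx3_head (K := K) hc hA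
  have hM1' : H P K.E ((T K.O (3 * Γ.length) (φ r) (V3 φ K Γ A)).ren (· + 2) ::
      (W3 φ K Γ A).ren Nat.succ :: W3 φ K Γ A :: ctx3 φ K Γ) tM
      (T K.O (3 * (A :: Γ).length) (φ s) (V3 φ K (A :: Γ) B)) := by
    simpa only [ctx3, srt_eq hc.func hA] using hM1
  rw [srt_eq hc.func hA] at hX3
  have hval := H.abs hW (H.abs (H.weak hW hW) (H.abs hX3 hM1' hp3) hp2) hpi'
  rw [← V3_pi hc hA hB] at hval
  have hA2 := H.weak (cast_at (ctx3_length Γ) hv hA1) hk
  have hE2 := H.weak hE hk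
  rw [atO_succ] at hA2 hE2
  have hkv := H.var hk
  simp only [kty, Tm.ren] at hkv
  have hret := H.app hkv (H.weak hval hk)
  have e : (((K.O (φ t)).ren (· + (3 * Γ.length + 1))).ren (upr Nat.succ)).sub
      (one ((Tm.lam (W3 φ K Γ A) (.lam ((W3 φ K Γ A).ren Nat.succ)
        (.lam ((T K.O (3 * Γ.length) (φ r) (V3 φ K Γ A)).ren (· + 2)) tM))).ren Nat.succ)) =
      (K.O (φ t)).ren (· + (3 * Γ.length + 1)) := by
    rw [ren_ren, sub_ren, ← sub_var_comp (K.O (φ t))]; congr 1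
  rw [e] at hret
  have hlen : (kty K (3 * Γ.length) (φ t) (V3 φ K Γ (.pi A B)) :: ctx3 φ K Γ).length =
      3 * Γ.length + 1 := by simp [ctx3_length]
  have hbody := pair_at hlen hw hA2 (pair_at hlen hw hE2 hret)
  refine star_conv hc hpi hT hcv.symm ?_ (lamk_typed hc (ctx3_length Γ) hV hbody)
  exact .lam (h1 := K.pair (φ t) + 3 * Γ.length) (h2 := K.pair (φ t) + 3 * Γ.length) (Nat.le_add_left _ _)
    (Nat.le_add_left _ _) (.wrap (Nat.le_add_left _ _) mA)
    (.wrap (d := Γ.length + 1) (by simp [List.length_cons]) (.star sM)) sM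

theorem star_app (hc : Closed P φ e) {Γ : List (Tm S)} {M N : Tm S}
    (ihM : HasStar φ K Γ M) (ihN : HasStar φ K Γ N) : HasStar φ K Γ (.app M N) := by
  intro T0 s0 h hT
  obtain ⟨A, B, hM, hN, hcv⟩ := h.gen_app
  rcases hM.correct with ⟨t, ht⟩ | ⟨t, hpi⟩
  · cases ht
  obtain ⟨r, s, t', hA, hB, hr, hct⟩ := hpi.gen_pi
  obtain rfl := conv_sort hct
  obtain ⟨tM, sM, hM1⟩ := ihM _ t hM hpi
  obtain ⟨tN, sN, hN1⟩ := ihN _ r hN hA
  obtain ⟨q, hq⟩ := run_typed hc (ctx3_length Γ) (V3_typed hc hA) hN1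
  have hBN := hB.subst hN
  have hC := V3_typed (K := K) hc hBN
  obtain ⟨qk, hk⟩ := kty_typed hc (ctx3_length Γ) hC
  have hF := V3_typed (K := K) hc hpi
  have hF' := H.weak hF hk
  have hlen : (kty K (3 * Γ.length) (φ s) (V3 φ K Γ (B.sub (one N))) :: ctx3 φ K Γ).length =
      3 * Γ.length + 1 := by simp [ctx3_length]
  obtain ⟨qF, hkF⟩ := kty_typed hc hlen hF'
  set k1 := kty K (3 * Γ.length) (φ s) (V3 φ K Γ (B.sub (one N))) with hk1
  set F := (V3 φ K Γ (.pi A B)).ren Nat.succ with hFdef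
  have hlen2 : (F :: k1 :: ctx3 φ K Γ).length = 3 * Γ.length + 2 := by simp [ctx3_length]
  have w2 : ∀ {X Y : Tm S}, H P K.E (ctx3 φ K Γ) X Y →
      H P K.E (F :: k1 :: ctx3 φ K Γ) ((X.ren Nat.succ).ren Nat.succ)
        ((Y.ren Nat.succ).ren Nat.succ) := fun hX => H.weak (H.weak hX hk) hF'
  set p := (tN.ren Nat.succ).ren Nat.succ with hp
  set w := ((W3 φ K Γ N).ren Nat.succ).ren Nat.succ with hw
  set v := ((V3 φ K Γ N).ren Nat.succ).ren Nat.succ with hv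
  have f0 : H P K.E (F :: k1 :: ctx3 φ K Γ) (.var 0) (((Tm.pi (W3 φ K Γ A)
      (.pi ((W3 φ K Γ A).ren Nat.succ) (.pi ((T K.O (3 * Γ.length) (φ r) (V3 φ K Γ A)).ren (· + 2))
        (T K.O (3 * (A :: Γ).length) (φ s) (V3 φ K (A :: Γ) B))))).ren Nat.succ).ren Nat.succ) := by
    rw [← V3_pi hc hA hB]; exact H.var hF'
  simp only [Tm.ren] at f0
  have f1 := H.app f0 (w2 (copy3_typed hc hN hA).1)
  simp only [Tm.sub] at f1
  have e1 : ((((W3 φ K Γ A).ren Nat.succ).ren (upr Nat.succ)).ren (upr Nat.succ)).sub (one w) =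
      ((W3 φ K Γ A).ren Nat.succ).ren Nat.succ := by
    rw [ren_ren, ren_ren, sub_ren, ren_ren, ← sub_var_comp]; congr 1
  rw [e1] at f1
  have f2 := H.app f1 (w2 (copy3_typed hc hN hA).2)
  simp only [Tm.sub] at f2
  have e2 : (((((T K.O (3 * Γ.length) (φ r) (V3 φ K Γ A)).ren (· + 2)).ren
      (upr (upr Nat.succ))).ren (upr (upr Nat.succ))).sub (Tm.up (one w))).sub (one v) =
      ((T K.O (3 * Γ.length) (φ r) (V3 φ K Γ A)).ren Nat.succ).ren Nat.succ := by
    rw [ren_ren, ren_ren, sub_ren, sub_sub, ren_ren, ← sub_var_comp]; congr 1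
  rw [e2] at f2
  have f3 := H.app f2 (w2 hN1)
  have e3 : (((((T K.O (3 * (A :: Γ).length) (φ s) (V3 φ K (A :: Γ) B)).ren
      (upr (upr (upr Nat.succ)))).ren (upr (upr (upr Nat.succ)))).sub
      (Tm.up (Tm.up (one w)))).sub (Tm.up (one v))).sub (one p) =
      ((T K.O (3 * Γ.length) (φ s) (V3 φ K Γ (B.sub (one N)))).ren Nat.succ).ren Nat.succ := by
    rw [V3_one hc hB hN tN, ← T_sub K.O (D := 3 * (A :: Γ).length) (fun g => by
      rw [show 3 * (A :: Γ).length + g = (3 * Γ.length + g) + 1 + 1 + 1 by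
        simp [List.length_cons]; ring]
      rfl)]
    rw [ren_ren, sub_ren, sub_sub, sub_sub, ren_ren, ren_sub]
    congr 1; funext i
    rcases i with _ | _ | _ | i <;>
      simp [upr, Tm.up, Tm.sub, one, Tm.ren, hw, hv, hp, ren_ren, sub_ren, sub_var_comp]
  rw [e3] at f3
  have hk' : H P K.E (F :: k1 :: ctx3 φ K Γ) (.var 1) ((k1.ren Nat.succ).ren Nat.succ) :=
    H.weak (H.var hk) hF'
  have f4 := H.app f3 (by simpa only [T, Tm.ren, hk1, kty] using hk')
  have e4 : ∀ X : Tm S, (((X.ren (· + (3 * Γ.length + 1))).ren (upr Nat.succ)).ren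
      (upr Nat.succ)).sub (one (Tm.var 1)) = X.ren (· + (3 * Γ.length + 2)) := fun X => by
    rw [ren_ren, ren_ren, sub_ren, ← sub_var_comp]; congr 1
  rw [e4] at f4
  obtain ⟨u1, hu1⟩ := (hc.link hr).1
  obtain ⟨u2, hu2⟩ := (hc.link hr).2
  have f5 := H.abs hF' (cast_at hlen2 hu1 f4) hkF
  have eT : (T K.O (3 * Γ.length) (φ t) (V3 φ K Γ (.pi A B))).ren Nat.succ =
      .pi (kty K (3 * Γ.length + 1) (φ t) F) ((K.O (φ t)).ren (· + (3 * Γ.length + 2))) := by
    rw [← sub_var_comp (T _ _ _ _), T_sub K.O (D' := 3 * Γ.length + 1) (fun g => by simp; omega),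
      sub_var_comp]
    rfl
  have hM1' := H.weak hM1 hk
  rw [eT] at hM1'
  have hM2 := H.app hM1' f5
  rw [atO_one] at hM2
  have hN2 := H.weak (cast_at (ctx3_length Γ) (hc.value hr).1 hq) hk
  rw [atO_succ] at hN2
  obtain ⟨z, hz, -⟩ := hc.neg s
  have hbody := pair_at hlen hz hN2 (cast_at hlen hu2 hM2)
  refine star_conv hc hBN hT hcv.symm ?_ (lamk_typed hc (ctx3_length Γ) hC hbody)
  exact .app (h1 := K.pair (φ s) + 3 * Γ.length) (h2 := K.cast (φ t) (φ s) + 3 * Γ.length)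
    (h3 := K.cast (φ s) (φ t) + 3 * Γ.length) (Nat.le_add_left _ _) (Nat.le_add_left _ _)
    (Nat.le_add_left _ _) sM sN (.wrap (Nat.le_add_left _ _) (.star sN))

/-- Translations exist. -/
theorem exist (hc : Closed P φ e) : ∀ (M : Tm S) (Γ : List (Tm S)),
    HasStar φ K Γ M ∧ HasEm φ e K Γ M := by
  intro M
  induction M with
  | var i =>
    intro Γ
    have hs : HasStar φ K Γ (.var i) := by
      intro T0 s h hT
      obtain ⟨A, hl, hcv⟩ := h.gen_var
      obtain ⟨s', hA, ht⟩ := star_var (K := K) hc hl h.wf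
      exact star_conv hc hA hT hcv.symm (.var (look_lt hl)) ht
    refine ⟨hs, fun T0 s h hcv => ?_⟩
    by_cases hk : ∃ k, (s, k) ∈ P.ax
    · exact em_of_star hc hs h hcv hk.choose_spec
    · rcases top_shape h hcv hk with ⟨A, B, eq⟩ | ⟨t, eq⟩ <;> cases eq
  | sort u =>
    intro Γ
    refine ⟨fun T0 s h hT => ?_, fun T0 s h _ => ?_⟩
    · obtain ⟨g, hg⟩ := tinh hc (ctx3_length Γ) (V3_typed (K := K) hc hT)
      exact ⟨g, .sort u g, hg⟩
    · have := (emb_sub (K := K) hc h.wf)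
      exact ⟨_, .sort u _, ho_at ((H.renamed (copy_typed hc h).1 this).wf) (ctx3_length Γ) (e s)⟩
  | app f a ihf iha =>
    intro Γ
    have hs := star_app hc (ihf Γ).1 (iha Γ).1
    refine ⟨hs, fun T0 s h hcv => ?_⟩
    by_cases hk : ∃ k, (s, k) ∈ P.ax
    · exact em_of_star hc hs h hcv hk.choose_spec
    · rcases top_shape h hcv hk with ⟨A, B, eq⟩ | ⟨t, eq⟩ <;> cases eq
  | lam A M ihA ihM =>
    intro Γ
    have hs := star_lam hc (ihA Γ).2 (ihM (A :: Γ)).1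
    refine ⟨hs, fun T0 s h hcv => ?_⟩
    by_cases hk : ∃ k, (s, k) ∈ P.ax
    · exact em_of_star hc hs h hcv hk.choose_spec
    · rcases top_shape h hcv hk with ⟨A, B, eq⟩ | ⟨t, eq⟩ <;> cases eq
  | pi A B ihA ihB =>
    intro Γ
    refine ⟨star_pi hc (ihA Γ).2 (ihB (A :: Γ)).2, fun T0 s h hcv => ?_⟩
    obtain ⟨r, s', t, hA, hB, hr, hct⟩ := h.gen_pi
    obtain rfl := conv_sort (hcv.symm.trans hct)
    exact em_pi hc hA hB hr (ihA Γ).2 (ihB (A :: Γ)).2

/-- Every typed term is strongly normalizing. -/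
theorem typed_sn (K : Kit P) (hc : Closed P φ e) {Γ : List (Tm S)} {M A : Tm S}
    (h : H P noGlobals Γ M A) : Sn M := by
  obtain ⟨hs, he⟩ := exist (K := K) hc M Γ
  rcases h.correct with ⟨s, rfl⟩ | ⟨s, hA⟩
  · obtain ⟨e, me, he'⟩ := he _ s h .rfl'
    obtain ⟨N, hr, hN⟩ := K.wn he'
    exact me.sn hr hN
  · obtain ⟨t, st, ht⟩ := hs A s h hA
    obtain ⟨q, hq⟩ := run_typed hc (ctx3_length Γ) (V3_typed hc hA) ht
    obtain ⟨N, hr, hN⟩ := K.wn hq
    exact (Em.star st).sn hr hN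

end Vale.Agent.P340.Mem
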