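import Vale.Agent.P340.M.Spec

/-!
# P340, memory translation: the global constants

Every use of a global constant can be replaced by a variable of an initial context, so weak
normalization extends to typing in their presence.
-/

namespace Vale.Agent.P340.Mem

open Tm

universe u

variable {S : Type u} {P : Spec S}

theorem toDerives {Γ : List (Tm S)} {M A : Tm S} (h : H P noGlobals Γ M A) :
    Derives P Γ M A := by
  induction h with
  | ax hp => exact .ax' hp
  | gvar he _ _ => exact he.elim
  | var _ ih => rw [← lift_zero]; exact .variable' ih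
  | weak _ _ i1 i2 => rw [← lift_zero, ← lift_zero]; exact .weakening i1 i2
  | prod _ _ hr i1 i2 => exact .product i1 i2 hr
  | abs _ _ _ _ i1 i2 => exact .abstraction i1 i2
  | app _ _ i1 i2 => rw [← subst_zero]; exact .application i1 i2
  | conv _ _ he i1 i2 => exact .conversion i1 i2 he.betaEq

theorem mono_globals {E E' : ℕ → Tm S → S → Prop} (hE : ∀ i A s, E i A s → E' i A s)
    {Γ : List (Tm S)} {M A : Tm S} (h : H P E Γ M A) : H P E' Γ M A := by
  induction h with
  | ax hp => exact .ax hp
  | gvar he _ ih => exact .gvar (hE _ _ _ he) ih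
  | var _ ih => exact .var ih
  | weak _ _ i1 i2 => exact .weak i1 i2
  | prod _ _ hr i1 i2 => exact .prod i1 i2 hr
  | abs _ _ _ i1 i2 i3 => exact .abs i1 i2 i3
  | app _ _ i1 i2 => exact .app i1 i2
  | conv _ _ he i1 i2 => exact .conv i1 i2 he

section

variable (ty : ℕ → Tm S)

/-- Global `i` has the type `ty i`. -/
def Glob : ℕ → Tm S → S → Prop := fun i A _ => A = ty i

/-- The globals below `n`. -/
def Upto (n : ℕ) : ℕ → Tm S → S → Prop := fun i A _ => A = ty i ∧ i < n

/-- The position of the global `i` in an initial context of length `n`, below `d` variables. -/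
def rho (n : ℕ) : ℕ → ℕ → ℕ
  | 0 => fun k => n - 1 - k
  | d + 1 => upr (rho n d)

/-- The first `n` globals as a context. -/
def base : ℕ → List (Tm S)
  | 0 => []
  | n + 1 => (ty n).ren (rho n 0) :: base n

/-- A context on top of the first `n` globals. -/
def ctx (n : ℕ) : List (Tm S) → List (Tm S)
  | [] => base ty n
  | A :: Γ => A.ren (rho n Γ.length) :: ctx n Γ

theorem rho_rho (n : ℕ) : ∀ d k, k < d + n → rho n d (rho n d k) = k
  | 0, k, h => by simp only [rho]; omega
  | d + 1, 0, _ => rfl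
  | d + 1, k + 1, h => by
    show rho n d (rho n d k) + 1 = k + 1
    rw [rho_rho n d k (by omega)]

theorem ren_succ_rho (n d : ℕ) (M : Tm S) :
    (M.ren Nat.succ).ren (rho n (d + 1)) = (M.ren (rho n d)).ren Nat.succ := by
  rw [ren_ren, ren_ren]; rfl

theorem upto_mono {n n' : ℕ} (hn : n ≤ n') {Γ : List (Tm S)} {M A : Tm S}
    (h : H P (Upto ty n) Γ M A) : H P (Upto ty n') Γ M A :=
  mono_globals (fun _ _ _ h => ⟨h.1, h.2.trans_le hn⟩) h

theorem exists_upto {Γ : List (Tm S)} {M A : Tm S} (h : H P (Glob ty) Γ M A) :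
    ∃ n, H P (Upto ty n) Γ M A := by
  induction h with
  | ax hp => exact ⟨0, .ax hp⟩
  | @gvar i A s he _ ih =>
    obtain ⟨n, hn⟩ := ih
    exact ⟨max n (i + 1), .gvar (s := s) ⟨he, lt_max_of_lt_right (Nat.lt_succ_self i)⟩
      (upto_mono ty (le_max_left _ _) hn)⟩
  | var _ ih =>
    obtain ⟨n, hn⟩ := ih
    exact ⟨n, .var hn⟩
  | weak _ _ i1 i2 =>
    obtain ⟨n, hn⟩ := i1; obtain ⟨n', hn'⟩ := i2
    exact ⟨max n n', .weak (upto_mono ty (le_max_left _ _) hn)
      (upto_mono ty (le_max_right _ _) hn')⟩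
  | prod _ _ hr i1 i2 =>
    obtain ⟨n, hn⟩ := i1; obtain ⟨n', hn'⟩ := i2
    exact ⟨max n n', .prod (upto_mono ty (le_max_left _ _) hn)
      (upto_mono ty (le_max_right _ _) hn') hr⟩
  | abs _ _ _ i0 i1 i2 =>
    obtain ⟨n, hn⟩ := i0; obtain ⟨n', hn'⟩ := i1; obtain ⟨n'', hn''⟩ := i2
    exact ⟨max n (max n' n''), .abs (upto_mono ty (le_max_left _ _) hn)
      (upto_mono ty ((le_max_left _ _).trans (le_max_right _ _)) hn')
      (upto_mono ty ((le_max_right _ _).trans (le_max_right _ _)) hn'')⟩
  | app _ _ i1 i2 =>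
    obtain ⟨n, hn⟩ := i1; obtain ⟨n', hn'⟩ := i2
    exact ⟨max n n', .app (upto_mono ty (le_max_left _ _) hn)
      (upto_mono ty (le_max_right _ _) hn')⟩
  | conv _ _ he i1 i2 =>
    obtain ⟨n, hn⟩ := i1; obtain ⟨n', hn'⟩ := i2
    exact ⟨max n n', .conv (upto_mono ty (le_max_left _ _) hn)
      (upto_mono ty (le_max_right _ _) hn') he⟩

/-- A derivation only mentions its context and the globals below `n`. -/
theorem ren_ext {n : ℕ} {Γ : List (Tm S)} {M A : Tm S} (h : H P (Upto ty n) Γ M A) :
    ∀ {r r' : ℕ → ℕ}, (∀ k, k < Γ.length + n → r k = r' k) →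
      M.ren r = M.ren r' ∧ A.ren r = A.ren r' := by
  induction h with
  | ax _ => exact fun _ => ⟨rfl, rfl⟩
  | gvar he _ ih =>
    intro r r' hr
    exact ⟨congrArg Tm.var (hr _ (by simpa using he.2)), (ih hr).1⟩
  | var _ ih =>
    intro r r' hr
    refine ⟨congrArg Tm.var (hr 0 (by simp)), ?_⟩
    rw [ren_ren, ren_ren]
    exact (ih fun k hk => hr _ (by simp; omega)).1
  | weak _ _ ih _ =>
    intro r r' hr
    rw [ren_ren, ren_ren, ren_ren, ren_ren]
    exact ih fun k hk => hr _ (by simp; omega)
  | prod _ _ _ i1 i2 =>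
    intro r r' hr
    refine ⟨?_, rfl⟩
    show Tm.pi _ _ = Tm.pi _ _
    rw [(i1 hr).1, (i2 (r := upr r) (r' := upr r') fun k hk => ?_).1]
    cases k with
    | zero => rfl
    | succ k => exact congrArg (· + 1) (hr k (by simp at hk; omega))
  | abs _ _ _ i0 i1 i2 =>
    intro r r' hr
    refine ⟨?_, (i2 hr).1⟩
    show Tm.lam _ _ = Tm.lam _ _
    rw [(i0 hr).1, (i1 (r := upr r) (r' := upr r') fun k hk => ?_).1]
    cases k with
    | zero => rfl
    | succ k => exact congrArg (· + 1) (hr k (by simp at hk; omega))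
  | app _ _ i1 i2 =>
    intro r r' hr
    obtain ⟨hM, hp⟩ := i1 hr
    refine ⟨by show Tm.app _ _ = Tm.app _ _; rw [hM, (i2 hr).1], ?_⟩
    simp only [Tm.ren, Tm.pi.injEq] at hp
    rw [ren_one_comp, ren_one_comp, hp.2, (i2 hr).1]
  | conv _ _ _ i1 i2 => exact fun hr => ⟨(i1 hr).1, (i2 hr).1⟩

/-- Globals become variables of an initial context. -/
theorem to_ctx {n : ℕ}
    (hb : ∀ i < n, ∃ s, H P noGlobals (base ty i) ((ty i).ren (rho i 0)) (.sort s))
    (hs : ∀ i < n, ∃ s, H P (Upto ty i) [] (ty i) (.sort s))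
    {Γ : List (Tm S)} {M A : Tm S} (h : H P (Upto ty n) Γ M A) :
    H P noGlobals (ctx ty n Γ) (M.ren (rho n Γ.length)) (A.ren (rho n Γ.length)) := by
  have hbase : ∀ m ≤ n, ∀ i < m,
      H P noGlobals (base ty m) (.var (m - 1 - i)) ((ty i).ren (rho m 0)) := by
    intro m
    induction m with
    | zero => omega
    | succ m ih =>
      intro hm i hi
      obtain ⟨s, hsm⟩ := hb m hm
      obtain ⟨t, hti⟩ := hs i (by omega)
      have e : (ty i).ren (rho (m + 1) 0) = ((ty i).ren (rho m 0)).ren Nat.succ := by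
        rw [ren_ren]
        exact (ren_ext ty hti fun k hk => by simp only [rho, List.length_nil] at hk ⊢; omega).1
      rw [e]
      rcases eq_or_lt_of_le (Nat.lt_succ_iff.1 hi) with rfl | hlt
      · rw [show i + 1 - 1 - i = 0 by omega]; exact .var hsm
      · rw [show m + 1 - 1 - i = (m - 1 - i) + 1 by omega]
        exact .weak (ih (by omega) i hlt) hsm
  have lift_base : ∀ {s t : S}, (s, t) ∈ P.ax → ∀ m ≤ n,
      H P noGlobals (base ty m) (.sort s) (.sort t) := by
    intro s t hp m
    induction m with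
    | zero => exact fun _ => .ax hp
    | succ m ih =>
      intro hm
      obtain ⟨s', hsm⟩ := hb m hm
      exact .weak (ih (by omega)) hsm
  induction h with
  | ax hp => exact lift_base hp n le_rfl
  | gvar he _ _ =>
    obtain ⟨rfl, hi⟩ := he
    exact hbase n le_rfl _ hi
  | @var Γ A s _ ih =>
    show H P noGlobals (_ :: _) (.var 0) _
    rw [List.length_cons, ren_succ_rho]
    exact .var ih
  | @weak Γ M B A s _ _ i1 i2 =>
    show H P noGlobals (_ :: _) _ _
    rw [List.length_cons, ren_succ_rho, ren_succ_rho]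
    exact .weak i1 i2
  | prod _ _ hr i1 i2 => exact .prod i1 i2 hr
  | abs _ _ _ i0 i1 i2 => exact .abs i0 i1 i2
  | app _ _ i1 i2 =>
    rw [ren_one_comp]
    exact .app i1 i2
  | conv _ _ he i1 i2 => exact .conv i1 i2 (he.ren _)

/-- Normalization in the presence of well founded globals. -/
theorem glob_wn (hs : ∀ i, ∃ s, H P (Upto ty i) [] (ty i) (.sort s))
    (hw : P.WeaklyNormalizing) {Γ : List (Tm S)} {M A : Tm S} (h : H P (Glob ty) Γ M A) :
    ∃ N, Red M N ∧ N.Normal := by
  have hb : ∀ i, ∃ s, H P noGlobals (base ty i) ((ty i).ren (rho i 0)) (.sort s) := by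
    intro i
    induction i using Nat.strong_induction_on with
    | _ i ih =>
      obtain ⟨s, hsi⟩ := hs i
      exact ⟨s, to_ctx ty ih (fun j _ => hs j) hsi⟩
  obtain ⟨n, hn⟩ := exists_upto ty h
  have hd := toDerives (to_ctx ty (fun i _ => hb i) (fun i _ => hs i) hn)
  obtain ⟨N, hr, hN⟩ := hw _ ⟨_, _, Or.inl hd⟩
  refine ⟨N.ren (rho n Γ.length), ?_, hN.ren _⟩
  have e : (M.ren (rho n Γ.length)).ren (rho n Γ.length) = M := by
    rw [ren_ren, (ren_ext ty hn (r' := id) fun k hk => rho_rho n _ k hk).1, ← sub_var_comp]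
    exact sub_var M
  have := Relation.ReflTransGen.lift (fun X => X.ren (rho n Γ.length))
    (fun _ _ hs => Step.ren hs (rho n Γ.length)) _ _ hr
  simp only [Function.onFun, e] at this
  exact this

end

/-- Every derivation names a sort. -/
theorem nonempty_of {E : ℕ → Tm S → S → Prop} {Γ : List (Tm S)} {M A : Tm S}
    (h : H P E Γ M A) : Nonempty S := by
  induction h with
  | @ax s _ _ => exact ⟨s⟩
  | gvar _ _ ih => exact ih
  | var _ ih => exact ih
  | weak _ _ ih _ => exact ih
  | prod _ _ _ ih _ => exact ih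
  | abs _ _ _ ih _ _ => exact ih
  | app _ _ ih _ => exact ih
  | conv _ _ _ ih _ => exact ih

section

variable [Encodable S] (P)

open Classical in
/-- An inhabitant type for each sort. -/
noncomputable def tyO (s : S) : Tm S :=
  if ∃ t, (s, t) ∈ P.ax then .var (5 * Encodable.encode s)
  else if h' : ∃ t, (t, s) ∈ P.ax then .sort h'.choose else .sort s

/-- The type of the pairing constant of a sort. -/
noncomputable def tyPair (s : S) : Tm S :=
  .pi (tyO P s) (.pi ((tyO P s).ren Nat.succ) ((tyO P s).ren (· + 2)))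

/-- The type of a cast constant. -/
noncomputable def tyCast (r s : S) : Tm S := .pi (tyO P r) ((tyO P s).ren Nat.succ)

open Classical in
/-- The type of the global `i`, with default `d`. -/
noncomputable def gty (d : Tm S) (i : ℕ) : Tm S :=
  match i % 5, Encodable.decode₂ S (i / 5), Encodable.decode₂ (S × S) (i / 5) with
  | 0, some s, _ => if ∃ t, (s, t) ∈ P.ax then .sort s else d
  | 1, some s, _ => tyO P s
  | 2, some s, _ => if ∃ t, (s, t) ∈ P.ax then .pi (.sort s) (.var 0) else d
  | 3, some s, _ => if ∃ t, (s, s, t) ∈ P.rule then tyPair P s else d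
  | 4, _, some p => if ∃ t, (p.1, p.2, t) ∈ P.rule then tyCast P p.1 p.2 else d
  | _, _, _ => d

variable {P}

theorem gty_tag0 (d : Tm S) {s t : S} (h : (s, t) ∈ P.ax) :
    gty P d (5 * Encodable.encode s) = .sort s := by
  have h' : ∃ t, (s, t) ∈ P.ax := ⟨t, h⟩
  simp [gty, Nat.mul_mod_right,
    Nat.mul_div_cancel_left _ (show 0 < 5 by norm_num), h']

theorem tyO_has {φ e : S → S} (hc : Closed P φ e) (d : Tm S) (s : S) {n : ℕ} (hn : 5 * Encodable.encode s < n) :
    H P (Upto (gty P d) n) [] (tyO P s) (.sort s) := by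
  unfold tyO
  split_ifs with h h'
  · exact .gvar (s := h.choose) ⟨(gty_tag0 d h.choose_spec).symm, hn⟩ (.ax h.choose_spec)
  · exact .ax h'.choose_spec
  · obtain ⟨t, ht | ht⟩ := hc.occurs s
    · exact absurd ⟨t, ht⟩ h
    · exact absurd ⟨t, ht⟩ h'

theorem gty_has {φ e : S → S} (hc : Closed P φ e) {s₀ t₀ : S} (h₀ : (s₀, t₀) ∈ P.ax) (i : ℕ) :
    ∃ s, H P (Upto (gty P (.sort s₀)) i) [] (gty P (.sort s₀) i) (.sort s) := by
  have hd : ∃ s, H P (Upto (gty P (.sort s₀)) i) [] (.sort s₀) (.sort s) := ⟨t₀, .ax h₀⟩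
  have hi := Nat.mod_add_div i 5
  have hO : ∀ s : S, 5 * Encodable.encode s < i →
      H P (Upto (gty P (.sort s₀)) i) [] (tyO P s) (.sort s) := fun s => tyO_has hc _ s
  generalize hT : gty P (.sort s₀) i = T
  unfold gty at hT
  split at hT
  · split_ifs at hT with h
    · subst hT; exact ⟨_, .ax h.choose_spec⟩
    · subst hT; exact hd
  · rename_i s hm hs
    subst hT
    exact ⟨_, hO s (by have := Encodable.mem_decode₂.1 hs; omega)⟩
  · split_ifs at hT with h
    · subst hT
      obtain ⟨u, hu⟩ := (hc.poly h.choose_spec).1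
      exact ⟨u, .prod (.ax h.choose_spec) (.var (.ax h.choose_spec)) hu⟩
    · subst hT; exact hd
  · rename_i s hm hs
    split_ifs at hT with h
    · subst hT
      have h1 := hO s (by have := Encodable.mem_decode₂.1 hs; omega)
      obtain ⟨t, ht⟩ := h
      refine ⟨t, .prod h1 (.prod (.weak h1 h1) ?_ ht) (hc.idem ht)⟩
      have h2 := H.weak (H.weak h1 h1) (H.weak h1 h1)
      rw [ren_ren] at h2
      exact h2
    · subst hT; exact hd
  · rename_i p hm hp
    split_ifs at hT with h
    · subst hT
      have he : Nat.pair (Encodable.encode p.1) (Encodable.encode p.2) = i / 5 :=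
        Encodable.mem_decode₂.1 hp
      have hr := hO p.1 (by have := Nat.left_le_pair (Encodable.encode p.1) (Encodable.encode p.2); omega)
      have hs := hO p.2 (by have := Nat.right_le_pair (Encodable.encode p.1) (Encodable.encode p.2); omega)
      exact ⟨h.choose, .prod hr (.weak hs hr) h.choose_spec⟩
    · subst hT; exact hd
  · subst hT; exact hd

end

/-- The globals exist. -/
theorem exists_kit [Countable S] {φ e : S → S} (hc : Closed P φ e) (hw : P.WeaklyNormalizing) :
    Nonempty (Kit P) := by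
  classical
  rcases isEmpty_or_nonempty S with hS | ⟨⟨a⟩⟩
  · exact ⟨{
      E := noGlobals
      O := isEmptyElim
      o := isEmptyElim
      gen := isEmptyElim
      cast := isEmptyElim
      pair := isEmptyElim
      hO := isEmptyElim
      ho := isEmptyElim
      hgen := fun {s} => isEmptyElim s
      hcast := fun {r} => isEmptyElim r
      hpair := fun {s} => isEmptyElim s
      wn := fun h => isEmptyElim (nonempty_of h).some }⟩
  have : Encodable S := Encodable.ofCountable S
  obtain ⟨s₀, t₀, h₀⟩ : ∃ s t, (s, t) ∈ P.ax := by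
    obtain ⟨t, ht | ht⟩ := hc.occurs a
    · exact ⟨_, _, ht⟩
    · exact ⟨_, _, ht⟩
  set ty := gty P (.sort s₀) with hty
  have hs : ∀ i, ∃ s, H P (Upto ty i) [] (ty i) (.sort s) := gty_has hc h₀
  have up : ∀ {i : ℕ} {M A : Tm S}, H P (Upto ty i) [] M A → H P (Glob ty) [] M A :=
    fun h => mono_globals (fun _ _ _ h => h.1) h
  have glob : ∀ i, H P (Glob ty) [] (.var i) (ty i) := fun i =>
    .gvar (s := (hs i).choose) rfl (up (hs i).choose_spec)
  have five : (0 : ℕ) < 5 := by norm_num
  exact ⟨{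
    E := Glob ty
    O := tyO P
    o := fun s => .var (5 * Encodable.encode s + 1)
    gen := fun s => .var (5 * Encodable.encode s + 2)
    cast := fun r s => 5 * Encodable.encode (r, s) + 4
    pair := fun s => 5 * Encodable.encode s + 3
    hO := fun s => up (tyO_has hc _ s (Nat.lt_succ_self _))
    ho := fun s => by
      have h := glob (5 * Encodable.encode s + 1)
      simp [hty, gty, Nat.mul_add_div five] at h
      exact h
    hgen := fun {s k} hsk => by
      have h := glob (5 * Encodable.encode s + 2)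
      have h' : ∃ t, (s, t) ∈ P.ax := ⟨k, hsk⟩
      simp [hty, gty, Nat.mul_add_div five, h'] at h
      exact h
    hcast := fun {r s t} hr => by
      have h := glob (5 * Encodable.encode (r, s) + 4)
      have h' : ∃ t, (r, s, t) ∈ P.rule := ⟨t, hr⟩
      simp [hty, gty, Nat.mul_add_div five, h', tyCast,
        -Encodable.encode_prod_val] at h
      exact h
    hpair := fun {s t} hst => by
      have h := glob (5 * Encodable.encode s + 3)
      have h' : ∃ t, (s, s, t) ∈ P.rule := ⟨t, hst⟩
      simp [hty, gty, Nat.mul_add_div five, h', tyPair] at h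
      exact h
    wn := fun h => glob_wn ty hs hw h }⟩

end Vale.Agent.P340.Mem
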