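import Vale.Agent.P340.M.Exist
import Vale.Agent.P340.M.Globals
import Vale.Agent.P340.M.Countable
import Vale.Agent.P340.T.Norm

/-!
# P340: weak normalization implies strong normalization for closed functional specifications
-/

namespace Vale.Agent.P340.Mem

open Tm

universe u

variable {S : Type u}

theorem closed_wn_sn_countable [Countable S] {P : Spec S} {φ e : S → S} (hc : Closed P φ e)
    (hw : P.WeaklyNormalizing) : P.StronglyNormalizing := by
  rintro M ⟨Γ, N, hMN⟩
  haveI : Nonempty S := ⟨(hMN.elim (fun h => h.exists_ax) fun h => h.exists_ax).choose.1⟩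
  obtain ⟨K⟩ := exists_kit hc hw
  refine Tier.sn_not_infinite ?_
  rcases hMN with h | h
  · exact typed_sn K hc (h.toH noGlobals)
  · rcases (h.toH noGlobals).correct with ⟨s, rfl⟩ | ⟨s, hs⟩
    · exact sn_sort s
    · exact typed_sn K hc hs

/-- Weak normalization implies strong normalization for closed specifications. -/
theorem closed_wn_sn {P : Spec S} {φ e : S → S} (hc : Closed P φ e) (hw : P.WeaklyNormalizing) :
    P.StronglyNormalizing :=
  reduce_countable (fun _ _ _ _ _ hc' hw' => closed_wn_sn_countable hc' hw') hc hw

end Vale.Agent.P340.Mem
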