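import Vale.Agent.P340.T.Judg

/-!
# P340, memory translation: the closure conditions and the global constants used
-/

namespace Vale.Agent.P340.Mem

open Tm

universe u

variable {S : Type u}

/-- Functional specifications, negatable and closed as the translation needs: `φ s` is the sort
in which computations of inhabitants of `s` live, `e s` the one that collects the contents of the
types of sort `s`. -/
structure Closed (P : Spec S) (φ e : S → S) : Prop where
  /-- every sort has at most one sort -/
  ax_func : ∀ {s t t' : S}, (s, t) ∈ P.ax → (s, t') ∈ P.ax → t = t'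
  /-- every pair of sorts has at most one rule -/
  rule_func : ∀ {r s t t' : S}, (r, s, t) ∈ P.rule → (r, s, t') ∈ P.rule → t = t'
  /-- every sort occurs in an axiom -/
  occurs : ∀ s : S, ∃ t, (s, t) ∈ P.ax ∨ (t, s) ∈ P.ax
  /-- a sort that has a sort is its own computation sort -/
  fixed : ∀ {s k : S}, (s, k) ∈ P.ax → φ s = s
  /-- negation in the computation sorts: `C → O` and `(C → O) → O` exist, the latter in the sort
  of `C` -/
  neg : ∀ s : S, ∃ t, (φ s, φ s, t) ∈ P.rule ∧ (t, φ s, φ s) ∈ P.rule
  /-- implication inside the collecting sorts -/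
  collect : ∀ s : S, ∃ t, (e s, e s, t) ∈ P.rule
  /-- iterated products stay in their sort -/
  idem : ∀ {r s t : S}, (r, s, t) ∈ P.rule → (r, t, t) ∈ P.rule
  /-- products of computations -/
  value : ∀ {r s t : S}, (r, s, t) ∈ P.rule →
    (φ r, φ s, φ t) ∈ P.rule ∧ (r, φ t, φ t) ∈ P.rule
  /-- the computation sorts of a body and of its product are linked in both directions -/
  link : ∀ {r s t : S}, (r, s, t) ∈ P.rule →
    (∃ u, (φ s, φ t, u) ∈ P.rule) ∧ ∃ u, (φ t, φ s, u) ∈ P.rule
  /-- the contents of domains and codomains reach those of products -/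
  emit : ∀ {r s t : S}, (r, s, t) ∈ P.rule →
    (∃ u, (e r, φ t, u) ∈ P.rule) ∧ (∃ u, (e r, e t, u) ∈ P.rule) ∧
      ∃ u, (e s, e t, u) ∈ P.rule
  /-- a sort with a sort is quantifiable, and linked to the computations of that sort -/
  poly : ∀ {s k : S}, (s, k) ∈ P.ax → (∃ u, (k, s, u) ∈ P.rule) ∧
    (∃ u, (φ k, e s, u) ∈ P.rule) ∧ ∃ u, (e s, φ k, u) ∈ P.rule

/-- The global constants of the translation, and normalization in their presence. -/
structure Kit (P : Spec S) where
  E : ℕ → Tm S → S → Prop
  O : S → Tm S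
  o : S → Tm S
  gen : S → Tm S
  cast : S → S → ℕ
  pair : S → ℕ
  hO : ∀ s, H P E [] (O s) (.sort s)
  ho : ∀ s, H P E [] (o s) (O s)
  hgen : ∀ {s k : S}, (s, k) ∈ P.ax → H P E [] (gen s) (.pi (.sort s) (.var 0))
  hcast : ∀ {r s t : S}, (r, s, t) ∈ P.rule →
    H P E [] (.var (cast r s)) (.pi (O r) ((O s).ren Nat.succ))
  hpair : ∀ {s t : S}, (s, s, t) ∈ P.rule → H P E [] (.var (pair s))
    (.pi (O s) (.pi ((O s).ren Nat.succ) ((O s).ren (· + 2))))
  wn : ∀ {Γ : List (Tm S)} {M A : Tm S}, H P E Γ M A → ∃ N, Red M N ∧ N.Normal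

end Vale.Agent.P340.Mem
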